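import Vale.Agent.P084.Sphere

/-!
P084 (Tingley's problem), library for arbitrary dimension: norms with a quadratic upper bound
near a point, and their transfer by an isometry of spheres.
-/

namespace Vale.Agent.P084

open Filter Topology Metric

variable {X Y : Type*} [NormedAddCommGroup X] [NormedSpace ℝ X] [NormedAddCommGroup Y]
  [NormedSpace ℝ Y]

/-- The norm has a support functional with quadratic error uniformly near `a`. -/
def QuadNear (a : X) : Prop :=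
  ∃ r : ℝ, 0 < r ∧ r ≤ 1 ∧ ∃ C : ℝ, 0 ≤ C ∧ ∀ w, ‖w - a‖ < r →
    DifferentiableAt ℝ (fun z : X => ‖z‖) w ∧
      ∀ η, ‖η‖ < r → ‖w + η‖ - ‖w‖ - dN w η ≤ C * ‖η‖ ^ 2

lemma norm_lower_bound {w : X} (hd : DifferentiableAt ℝ (fun z : X => ‖z‖) w) (η : X) :
    0 ≤ ‖w + η‖ - ‖w‖ - dN w η := by
  have h := dN_le w (w + η)
  rw [map_add, hd.fderiv_norm_self] at h
  show 0 ≤ ‖w + η‖ - ‖w‖ - dN w η
  linarith

/-- The derivative is Lipschitz where the error is quadratic. -/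
lemma norm_dN_sub_le {a : X} {r C : ℝ} (hC : 0 ≤ C)
    (h : ∀ w, ‖w - a‖ < r → DifferentiableAt ℝ (fun z : X => ‖z‖) w ∧
      ∀ η, ‖η‖ < r → ‖w + η‖ - ‖w‖ - dN w η ≤ C * ‖η‖ ^ 2)
    {w₁ w₂ : X} (h₁ : ‖w₁ - a‖ < r / 4) (h₂ : ‖w₂ - a‖ < r / 4) :
    ‖dN w₂ - dN w₁‖ ≤ 4 * C * ‖w₂ - w₁‖ := by
  set d := w₂ - w₁ with hd
  have hdr : ‖d‖ < r / 2 := by
    have := norm_sub_le_norm_sub_add_norm_sub w₂ a w₁
    rw [norm_sub_rev a w₁] at this
    linarith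
  have hr : 0 < r := by linarith [norm_nonneg (w₁ - a)]
  obtain ⟨hd₁, hq₁⟩ := h w₁ (by linarith)
  obtain ⟨hd₂, -⟩ := h w₂ (by linarith)
  have key : ∀ η : X, ‖η‖ = ‖d‖ → dN w₂ η - dN w₁ η ≤ 4 * C * ‖d‖ * ‖η‖ := by
    intro η hη
    have hs : ‖d + η‖ ≤ 2 * ‖d‖ := (norm_add_le _ _).trans (by linarith)
    have h3 := hq₁ (d + η) (hs.trans_lt (by linarith))
    have h4 := norm_lower_bound hd₁ d
    have h5 := norm_lower_bound hd₂ η
    rw [map_add, show w₁ + (d + η) = w₂ + η by rw [hd]; abel] at h3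
    rw [show w₁ + d = w₂ by rw [hd]; abel] at h4
    have h6 : ‖d + η‖ ^ 2 ≤ (2 * ‖d‖) ^ 2 := pow_le_pow_left₀ (norm_nonneg _) hs 2
    rw [hη]
    nlinarith [mul_le_mul_of_nonneg_left h6 hC]
  refine ContinuousLinearMap.opNorm_le_bound _ (by positivity) fun η => ?_
  rcases eq_or_ne η 0 with rfl | hη
  · simp
  rcases eq_or_ne d 0 with h0 | h0
  · rw [hd, sub_eq_zero] at h0
    simp [h0]
    positivity
  have hp : 0 < ‖η‖ := norm_pos_iff.2 hη
  set c := ‖d‖ / ‖η‖ with hc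
  have hcp : 0 < c := div_pos (norm_pos_iff.2 h0) hp
  have hcn : ‖c • η‖ = ‖d‖ := by
    rw [norm_smul, Real.norm_of_nonneg hcp.le, hc, div_mul_cancel₀ _ hp.ne']
  have k1 := key (c • η) hcn
  have k2 := key (-(c • η)) (by rw [norm_neg, hcn])
  simp only [map_neg, map_smul, smul_eq_mul, norm_neg, norm_smul, Real.norm_of_nonneg hcp.le]
    at k1 k2
  rw [sub_apply, Real.norm_eq_abs, abs_le]
  constructor <;> refine le_of_mul_le_mul_left ?_ hcp <;> linarith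

lemma QuadNear.neg {a : X} (h : QuadNear a) : QuadNear (-a) := by
  obtain ⟨r, hr, hr1, C, hC, h⟩ := h
  refine ⟨r, hr, hr1, C, hC, fun w hw => ?_⟩
  obtain ⟨hd, hq⟩ := h (-w) (by rwa [← neg_add', norm_neg, ← sub_neg_eq_add])
  refine ⟨?_, fun η hη => ?_⟩
  · have h1 := (differentiableAt_norm_smul (x := -w) (t := (-1 : ℝ)) (by norm_num)).1 hd
    simpa using h1
  · have h1 := hq (-η) (by rwa [norm_neg])
    rw [← neg_add, norm_neg, norm_neg, norm_neg, dN_neg] at h1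
    simpa using h1

lemma QuadNear.smul {a : X} (h : QuadNear a) {t : ℝ} (ht : 0 < t) : QuadNear (t • a) := by
  obtain ⟨r, hr, -, C, hC, h⟩ := h
  refine ⟨min 1 (t * r), lt_min one_pos (mul_pos ht hr), min_le_left _ _, C / t,
    div_nonneg hC ht.le, fun w hw => ?_⟩
  have hw' : ‖t⁻¹ • w - a‖ < r := by
    rw [show t⁻¹ • w - a = t⁻¹ • (w - t • a) by
      rw [smul_sub, inv_smul_smul₀ ht.ne'], norm_smul, norm_inv,
      Real.norm_of_nonneg ht.le, inv_mul_lt_iff₀ ht]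
    exact hw.trans_le (min_le_right _ _)
  obtain ⟨hd, hq⟩ := h _ hw'
  refine ⟨(differentiableAt_norm_smul (inv_ne_zero ht.ne')).2 hd, fun η hη => ?_⟩
  have h1 := hq (t⁻¹ • η) (by
    rw [norm_smul, norm_inv, Real.norm_of_nonneg ht.le, inv_mul_lt_iff₀ ht]
    exact hη.trans_le (min_le_right _ _))
  rw [← smul_add, norm_smul, norm_smul, norm_smul, map_smul, norm_inv,
    Real.norm_of_nonneg ht.le, smul_eq_mul, dN_smul_pos w (inv_pos.2 ht)] at h1
  refine le_of_mul_le_mul_left ?_ (inv_pos.2 ht)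
  calc t⁻¹ * (‖w + η‖ - ‖w‖ - dN w η) = t⁻¹ * ‖w + η‖ - t⁻¹ * ‖w‖ - t⁻¹ * dN w η := by ring
    _ ≤ C * (t⁻¹ * ‖η‖) ^ 2 := h1
    _ = _ := by rw [inv_eq_one_div]; field_simp

/-- A norm that is twice continuously differentiable near a point has quadratic error there. -/
lemma quadNear_of_contDiffAt {a : X}
    (h : ∀ᶠ x in 𝓝 a, ContDiffAt ℝ 2 (fun z : X => ‖z‖) x) : QuadNear a := by
  have hcont : ContinuousAt (fun x : X => ddN x) a :=
    ((h.self_of_nhds.fderiv_right (m := 1) (by norm_num)).fderiv_right (m := 0)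
      (by norm_num)).continuousAt
  set C := ‖ddN a‖ + 1 with hC
  have hev : ∀ᶠ x in 𝓝 a, ContDiffAt ℝ 2 (fun z : X => ‖z‖) x ∧ ‖ddN x‖ < C :=
    h.and ((((continuous_norm (E := X →L[ℝ] X →L[ℝ] ℝ)).tendsto (ddN a)).comp hcont).eventually_lt_const (show ‖ddN a‖ < C by rw [hC]; linarith))
  obtain ⟨r, hr, hr'⟩ := Metric.eventually_nhds_iff.1 hev
  refine ⟨min 1 (r / 2), lt_min one_pos (half_pos hr), min_le_left _ _, C, by positivity,
    fun w hw => ⟨((hr' (y := w) ?_).1).differentiableAt (by norm_num), fun η hη => ?_⟩⟩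
  · rw [dist_eq_norm]; linarith [min_le_right (1 : ℝ) (r / 2)]
  have hin : ∀ z ∈ closedBall w ‖η‖, dist z a < r := fun z hz => by
    rw [mem_closedBall] at hz
    refine (dist_triangle z w a).trans_lt ?_
    rw [dist_eq_norm w a]
    linarith [min_le_right (1 : ℝ) (r / 2)]
  have hdN : ∀ z ∈ closedBall w ‖η‖, ‖dN z - dN w‖ ≤ C * ‖η‖ := fun z hz => by
    have h2 := (convex_closedBall w ‖η‖).norm_image_sub_le_of_norm_hasFDerivWithin_le
      (f := fun x : X => dN x) (f' := fun x => ddN x)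
      (fun x hx => (((hr' (hin x hx)).1.fderiv_right (m := 1) (by norm_num)).differentiableAt
        (by norm_num)).hasFDerivAt.hasFDerivWithinAt)
      (fun x hx => (hr' (hin x hx)).2.le) (mem_closedBall_self (norm_nonneg _)) hz
    refine h2.trans (mul_le_mul_of_nonneg_left ?_ (by positivity))
    rwa [← dist_eq_norm]
  have h3 := (convex_closedBall w ‖η‖).norm_image_sub_le_of_norm_hasFDerivWithin_le'
    (f := fun x : X => ‖x‖) (f' := fun x => dN x) (φ := dN w)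
    (fun x hx => (((hr' (hin x hx)).1).differentiableAt (by norm_num)).hasFDerivAt.hasFDerivWithinAt)
    hdN (mem_closedBall_self (norm_nonneg _))
    (show w + η ∈ closedBall w ‖η‖ by simp [dist_eq_norm])
  rw [add_sub_cancel_left, Real.norm_eq_abs] at h3
  calc ‖w + η‖ - ‖w‖ - dN w η ≤ |‖w + η‖ - ‖w‖ - dN w η| := le_abs_self _
    _ ≤ C * ‖η‖ * ‖η‖ := h3
    _ = _ := by ring

namespace SphIso

variable (s : SphIso X Y)

include s

/-- Second differences of the norm of the target at the image of a point with quadratic error. -/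
lemma second_diff_le {a : Y} (ha : ‖a‖ = 1) {r C : ℝ} (hC : 0 ≤ C)
    (hd : DifferentiableAt ℝ (fun z : X => ‖z‖) (s.H a))
    (hq : ∀ η, ‖η‖ < r → ‖s.H a + η‖ - ‖s.H a‖ - dN (s.H a) η ≤ C * ‖η‖ ^ 2)
    (η : Y) (hη : ‖η‖ ≤ 1 / 2) (hηr : 12 * ‖η‖ < r) :
    ‖a + η‖ + ‖a - η‖ - 2 ≤ (288 * C + 8) * ‖η‖ ^ 2 := by
  have est : ∀ ζ : Y, ‖ζ‖ = ‖η‖ → 1 / 2 ≤ ‖a + ζ‖ ∧ |‖a + ζ‖ - 1| ≤ ‖η‖ ∧
      ‖‖a + ζ‖⁻¹ • (a + ζ) - a‖ ≤ 4 * ‖η‖ ∧ ‖‖a + ζ‖⁻¹ • (a + ζ)‖ = 1 := by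
    intro ζ hζ
    have h1 : |‖a + ζ‖ - 1| ≤ ‖η‖ := by
      have := abs_norm_sub_norm_le (a + ζ) a
      rwa [ha, add_sub_cancel_left, hζ] at this
    have h2 : 1 / 2 ≤ ‖a + ζ‖ := by linarith [(abs_le.1 h1).1]
    have hne : a + ζ ≠ 0 := fun h => by norm_num [h] at h2
    refine ⟨h2, h1, ?_, norm_smul_inv_norm hne⟩
    have hpos : 0 < ‖a + ζ‖ := by linarith
    have e : ‖a + ζ‖ • (‖a + ζ‖⁻¹ • (a + ζ) - a) = (1 - ‖a + ζ‖) • a + ζ := by
      simp only [smul_sub, smul_smul, mul_inv_cancel₀ hpos.ne', one_smul]; module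
    have h3 : ‖a + ζ‖ * ‖‖a + ζ‖⁻¹ • (a + ζ) - a‖ ≤ 2 * ‖η‖ := by
      have hh' := norm_add_le ((1 - ‖a + ζ‖) • a) ζ
      rw [← e, norm_smul, norm_smul, ha, mul_one, Real.norm_of_nonneg hpos.le,
        Real.norm_eq_abs, abs_sub_comm, hζ] at hh'
      linarith
    nlinarith [norm_nonneg (‖a + ζ‖⁻¹ • (a + ζ) - a)]
  obtain ⟨hm2, hm1, hpa, hp1⟩ := est η rfl
  obtain ⟨hn2, hn1, hqa, hq1⟩ := est (-η) (norm_neg η)
  rw [← sub_eq_add_neg] at hn2 hn1 hqa hq1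
  set m := ‖a + η‖ with hm
  set n := ‖a - η‖ with hn
  set P := m⁻¹ • (a + η) with hP
  set P' := n⁻¹ • (a - η) with hP'
  have hρ : ∀ z : Y, ‖z‖ = 1 → ‖z - a‖ ≤ 4 * ‖η‖ →
      1 - dN (s.H a) (s.H z) ≤ C * (12 * ‖η‖) ^ 2 := by
    intro z hz hza
    have hh : ‖s.H z - s.H a‖ ≤ 12 * ‖η‖ :=
      (s.symm.norm_G_sub_le z a).trans (by linarith)
    have h := hq (s.H z - s.H a) (hh.trans_lt hηr)
    rw [add_sub_cancel, map_sub, s.norm_H, s.norm_H, hz, ha,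
      show dN (s.H a) (s.H a) = 1 by rw [hd.fderiv_norm_self, s.norm_H, ha]] at h
    calc 1 - dN (s.H a) (s.H z) ≤ C * ‖s.H z - s.H a‖ ^ 2 := by linarith
      _ ≤ _ := by gcongr
  have hlow : 2 - 2 * (C * (12 * ‖η‖) ^ 2) ≤ ‖P + P'‖ := by
    have e1 : ‖s.H P + s.H P'‖ = ‖P + P'‖ := by
      have := s.symm.norm_G_sub_of_unit (x := P) (y := -P') hp1 (by rw [norm_neg, hq1])
      simpa [s.symm.G_neg, ← sub_eq_add_neg] using this
    have e3 := dN_le (s.H a) (s.H P + s.H P')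
    rw [map_add, e1] at e3
    linarith [hρ P hp1 hpa, hρ P' hq1 hqa]
  have hconv : 2 ≤ m + n := by
    have := norm_add_le (a + η) (a - η)
    rw [show a + η + (a - η) = (2 : ℝ) • a by module, norm_smul, ha] at this
    simpa using this
  have hup : ‖P + P'‖ ≤ 2 - (m + n - 2) + 8 * ‖η‖ ^ 2 := by
    have e : P + P' = (m⁻¹ + n⁻¹) • a + (m⁻¹ - n⁻¹) • η := by
      simp only [hP, hP']; module
    have hinv : ∀ z : ℝ, 1 / 2 ≤ z → |z - 1| ≤ ‖η‖ →
        z⁻¹ ≤ 1 - (z - 1) + 2 * ‖η‖ ^ 2 ∧ |z⁻¹ - 1| ≤ 2 * ‖η‖ := by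
      intro z hz hz1
      have hz0 : 0 < z := by linarith
      have hsq : (z - 1) ^ 2 ≤ ‖η‖ ^ 2 := by
        rw [← sq_abs (z - 1)]
        exact pow_le_pow_left₀ (abs_nonneg _) hz1 2
      constructor
      · rw [inv_le_iff_one_le_mul₀ hz0]; nlinarith
      · rw [show z⁻¹ - 1 = -((z - 1) * z⁻¹) by field_simp; ring, abs_neg, abs_mul,
          abs_of_pos (inv_pos.2 hz0)]
        calc |z - 1| * z⁻¹ ≤ ‖η‖ * 2 := by
              gcongr
              rw [inv_le_comm₀ hz0 two_pos]; linarith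
          _ = 2 * ‖η‖ := mul_comm _ _
    obtain ⟨i1, j1⟩ := hinv m hm2 hm1
    obtain ⟨i2, j2⟩ := hinv n hn2 hn1
    have h4 : |m⁻¹ - n⁻¹| * ‖η‖ ≤ 4 * ‖η‖ * ‖η‖ := by
      refine mul_le_mul_of_nonneg_right ?_ (norm_nonneg η)
      have := abs_sub_le m⁻¹ 1 n⁻¹
      rw [abs_sub_comm 1 n⁻¹] at this
      linarith
    have hmn : 0 ≤ m⁻¹ + n⁻¹ := by positivity
    rw [e]
    refine (norm_add_le _ _).trans ?_
    rw [norm_smul, norm_smul, ha, mul_one, Real.norm_of_nonneg hmn, Real.norm_eq_abs]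
    linarith
  linarith

/-- Quadratic error passes to the target. -/
lemma quadNear_G {v : X} (hv : ‖v‖ = 1) (h : QuadNear v) : QuadNear (s.G v) := by
  obtain ⟨r, hr, hr1, C, hC, h⟩ := h
  set K := 288 * C + 8 with hK
  have hK0 : 0 ≤ K := by positivity
  have hGv : ‖s.G v‖ = 1 := by rw [s.norm_G, hv]
  refine ⟨r / 96, by positivity, by linarith, 2 * K, by positivity, fun w hw => ?_⟩
  have hwn : |‖w‖ - 1| < r / 96 := by
    have := abs_norm_sub_norm_le w (s.G v)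
    rw [hGv] at this
    exact this.trans_lt hw
  have hw2 : 1 / 2 < ‖w‖ := by linarith [(abs_lt.1 hwn).1]
  have hw0 : w ≠ 0 := fun e => by norm_num [e] at hw2
  set t := ‖w‖ with ht
  set a := t⁻¹ • w with ha
  have ha1 : ‖a‖ = 1 := norm_smul_inv_norm hw0
  have hta : w = t • a := by rw [ha, smul_inv_smul₀ (by linarith)]
  have hav : ‖a - s.G v‖ < r / 12 := by
    have e : a - s.G v = (a - w) + (w - s.G v) := by abel
    have h2 : ‖a - w‖ = |1 - t| := by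
      conv_lhs => rw [hta, show a - t • a = (1 - t) • a by module]
      rw [norm_smul, ha1, mul_one, Real.norm_eq_abs]
    rw [e]
    refine (norm_add_le _ _).trans_lt ?_
    rw [h2, abs_sub_comm]
    linarith
  have hHa : ‖s.H a - v‖ < r := by
    have := s.symm.norm_G_sub_le a (s.G v)
    rw [symm_G, s.H_G] at this
    linarith
  obtain ⟨hd, hq⟩ := h _ hHa
  have hsd : ∀ η : Y, ‖η‖ < r / 48 → ‖w + η‖ + ‖w - η‖ - 2 * ‖w‖ ≤ 2 * K * ‖η‖ ^ 2 := by
    intro η hη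
    have hηt : ‖t⁻¹ • η‖ ≤ 2 * ‖η‖ := by
      rw [norm_smul, norm_inv, Real.norm_of_nonneg (by linarith)]
      gcongr
      rw [inv_le_comm₀ (by linarith) two_pos]; linarith
    have hh := s.second_diff_le ha1 hC hd hq (t⁻¹ • η) (by linarith) (by linarith)
    have htp : (0 : ℝ) < t := by linarith
    rw [show a + t⁻¹ • η = t⁻¹ • (w + η) by rw [ha, smul_add],
      show a - t⁻¹ • η = t⁻¹ • (w - η) by rw [ha, smul_sub], norm_smul, norm_smul, norm_smul,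
      norm_inv, Real.norm_of_nonneg htp.le] at hh
    have h2 := mul_le_mul_of_nonneg_left hh htp.le
    rw [mul_sub, mul_add, ← mul_assoc, ← mul_assoc, mul_inv_cancel₀ htp.ne', one_mul, one_mul]
      at h2
    have h3 : t * ((288 * C + 8) * (t⁻¹ * ‖η‖) ^ 2) ≤ 2 * K * ‖η‖ ^ 2 := by
      rw [show t * ((288 * C + 8) * (t⁻¹ * ‖η‖) ^ 2) = K * ‖η‖ ^ 2 * t⁻¹ by
        rw [hK]; field_simp]
      rw [show 2 * K * ‖η‖ ^ 2 = K * ‖η‖ ^ 2 * 2 by ring]
      gcongr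
      rw [inv_le_comm₀ htp two_pos]; linarith
    rw [ht] at h2
    linarith
  obtain ⟨φ, hφ1, hφw⟩ := exists_dual_vector'' ℝ w
  have hφ : ∀ z, φ z ≤ ‖z‖ := fun z => by
    calc φ z ≤ ‖φ z‖ := Real.le_norm_self _
      _ ≤ ‖φ‖ * ‖z‖ := φ.le_opNorm z
      _ ≤ 1 * ‖z‖ := by gcongr
      _ = ‖z‖ := one_mul _
  have hφw' : φ w = ‖w‖ := hφw
  have hb : ∀ η : Y, ‖η‖ < r / 48 →
      0 ≤ ‖w + η‖ - ‖w‖ - φ η ∧ ‖w + η‖ - ‖w‖ - φ η ≤ 2 * K * ‖η‖ ^ 2 := by
    intro η hη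
    have h1 := hφ (w + η)
    have h2 := hφ (w - η)
    rw [map_add, hφw'] at h1
    rw [map_sub, hφw'] at h2
    exact ⟨by linarith, by linarith [hsd η hη]⟩
  have hfd : HasFDerivAt (fun z : Y => ‖z‖) φ w := by
    rw [hasFDerivAt_iff_isLittleO_nhds_zero]
    refine (Asymptotics.IsBigO.of_bound (2 * K) ?_).trans_isLittleO
      (Asymptotics.isLittleO_norm_pow_id (E' := Y) one_lt_two)
    filter_upwards [ball_mem_nhds (0 : Y) (show (0 : ℝ) < r / 48 by positivity)] with η hη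
    rw [mem_ball_zero_iff] at hη
    obtain ⟨l, u⟩ := hb η hη
    rw [Real.norm_of_nonneg l, norm_pow, norm_norm]
    exact u
  refine ⟨hfd.differentiableAt, fun η hη => ?_⟩
  rw [show dN w = φ from hfd.fderiv]
  exact (hb η (by linarith)).2

end SphIso

end Vale.Agent.P084
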