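import Vale.Agent.P084.Inf.Regular
import Vale.Agent.P084.Calc

/-!
P084 (Tingley's problem), library for arbitrary dimension: first and second order facts at a
curved point.
-/

namespace Vale.Agent.P084

open Filter Topology Metric

variable {X Y : Type*} [NormedAddCommGroup X] [NormedSpace ℝ X] [NormedAddCommGroup Y]
  [NormedSpace ℝ Y]

/-- The second derivative of a norm in the radial direction vanishes. -/
lemma ddN_radial {w : X} (hw : w ≠ 0)
    (hd : DifferentiableAt ℝ (fun z : X => dN z) w)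
    (hn : ∀ᶠ z in 𝓝 w, DifferentiableAt ℝ (fun z : X => ‖z‖) z) :
    (∀ k, ddN w w k = 0) ∧ ∀ h, ddN w h w = 0 := by
  constructor
  · intro k
    have hl : HasDerivAt (fun t : ℝ => w + t • w) w 0 := by
      simpa using ((hasDerivAt_id (0 : ℝ)).smul_const w).const_add w
    have hdd : HasDerivAt (fun t : ℝ => dN (w + t • w)) (ddN w w) 0 :=
      hd.hasFDerivAt.comp_hasDerivAt_of_eq 0 hl (by simp)
    have hc : (fun t : ℝ => dN (w + t • w)) =ᶠ[𝓝 0] fun _ => dN w := by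
      filter_upwards [eventually_gt_nhds (show (-1 : ℝ) < 0 by norm_num)] with t ht
      rw [show w + t • w = (1 + t) • w by rw [add_smul, one_smul]]
      exact dN_smul_pos w (by linarith)
    rw [hdd.unique ((hasDerivAt_const (0 : ℝ) (dN w)).congr_of_eventuallyEq hc), zero_apply]
  · intro h
    have hf := hd.hasFDerivAt.clm_apply (hasFDerivAt_id w)
    have hg : (fun z : X => dN z (id z)) =ᶠ[𝓝 w] fun z => ‖z‖ :=
      (hn.and (eventually_ne_nhds hw)).mono fun z hz => hz.1.fderiv_norm_self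
    have := DFunLike.congr_fun ((hf.congr_of_eventuallyEq hg.symm).unique
      hn.self_of_nhds.hasFDerivAt) h
    simpa using this

lemma GoodAt.smul_ne {v : X} (h : GoodAt v) {t : ℝ} (ht : t ≠ 0) : t • v ≠ 0 :=
  smul_ne_zero ht h.ne_zero

/-- Curved points form an open set of the sphere. -/
lemma GoodAt.eventually {v : X} (h : GoodAt v) : ∀ᶠ u in 𝓝 v, ‖u‖ = 1 → GoodAt u := by
  obtain ⟨hv, hC2, κ, hκ, hco⟩ := id h
  have hvv := h.dN_self
  have hcd : ContinuousAt (fun z : X => dN z) v :=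
    (hC2.self_of_nhds.fderiv_right (m := 1) (by norm_num)).continuousAt
  have hcQ : ContinuousAt (fun z : X => ddN z) v :=
    ((hC2.self_of_nhds.fderiv_right (m := 1) (by norm_num)).fderiv_right (m := 0)
      (by norm_num)).continuousAt
  have hn1 : ∀ᶠ u in 𝓝 v, ‖ddN u - ddN v‖ < κ / 16 := by
    filter_upwards [hcQ.tendsto.eventually_mem (ball_mem_nhds (α := X →L[ℝ] X →L[ℝ] ℝ) (ddN v)
      (show 0 < κ / 16 by positivity))] with u hu
    exact (mem_ball_iff_norm (E := X →L[ℝ] X →L[ℝ] ℝ)).1 hu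
  have hn2 : ∀ᶠ u in 𝓝 v, ‖dN u - dN v‖ < min (1 / 2) (κ / (16 * (‖ddN v‖ + 1))) := by
    filter_upwards [hcd (ball_mem_nhds _ (show (0:ℝ) < min (1 / 2) (κ / (16 * (‖ddN v‖ + 1))) by
      positivity))] with u hu
    exact mem_ball_iff_norm.1 hu
  filter_upwards [hC2.eventually_nhds, hn1, hn2] with u hu h1 h2 hu1
  refine ⟨hu1, hu, κ / 16, by positivity, fun k hk => ?_⟩
  have hq0 : 0 ≤ ‖ddN v‖ := ContinuousLinearMap.opNorm_nonneg _
  have ha : |dN v k| ≤ ‖dN u - dN v‖ * ‖k‖ := by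
    have := (dN u - dN v).le_opNorm k
    rwa [sub_apply, hk, zero_sub, norm_neg] at this
  have hz : dN v (k - dN v k • v) = 0 := by simp [hvv]
  have hrad := ddN_radial h.ne_zero
    ((hC2.self_of_nhds.fderiv_right (m := 1) (by norm_num)).differentiableAt (by norm_num))
    (hC2.mono fun z hz => hz.differentiableAt (by norm_num))
  have hQ : κ * ‖k - dN v k • v‖ ^ 2 ≤ ddN v k k := by
    have := hco _ hz
    simpa [hrad.1, hrad.2] using this
  have hkn : ‖k‖ / 2 ≤ ‖k - dN v k • v‖ := by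
    have h3 := norm_sub_norm_le k (dN v k • v)
    rw [norm_smul, hv, mul_one, Real.norm_eq_abs] at h3
    have h4 := mul_le_mul_of_nonneg_right (h2.le.trans (min_le_left _ _)) (norm_nonneg k)
    linarith
  have h5 : |(ddN u - ddN v) k k| ≤ κ / 16 * (‖k‖ * ‖k‖) := by
    rw [← Real.norm_eq_abs, ← mul_assoc]
    refine ((ddN u - ddN v).le_opNorm₂ k k).trans ?_
    gcongr
  rw [sub_apply, sub_apply] at h5
  have h6 : κ * (‖k‖ / 2) ^ 2 ≤ κ * ‖k - dN v k • v‖ ^ 2 := by gcongr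
  have := mul_nonneg hκ.le (sq_nonneg ‖k‖)
  nlinarith [(abs_le.1 h5).1]

/-- Riesz representation in the coercive form on a hyperplane. -/
lemma exists_rep [CompleteSpace X] (a : X →L[ℝ] ℝ) (Q : X →L[ℝ] X →L[ℝ] ℝ)
    (hQs : ∀ s t, Q s t = Q t s) {κ : ℝ} (hκ : 0 < κ)
    (hco : ∀ h, a h = 0 → κ * ‖h‖ ^ 2 ≤ Q h h) (ψ : X →L[ℝ] ℝ) :
    ∃ r, a r = 0 ∧ ∀ z, a z = 0 → Q r z = ψ z := by
  let H : Set X := {h | a h = 0}
  let f : X → ℝ := fun h => Q h h - 2 * ψ h
  have hbd : BddBelow (f '' H) := by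
    refine ⟨-(‖ψ‖ ^ 2 / κ), ?_⟩
    rintro _ ⟨h, hh, rfl⟩
    have h1 := hco h hh
    have h2 : ψ h ≤ ‖ψ‖ * ‖h‖ := (Real.le_norm_self _).trans (ψ.le_opNorm h)
    have h3 : 0 ≤ (κ * ‖h‖ - ‖ψ‖) ^ 2 / κ := by positivity
    have h4 : (κ * ‖h‖ - ‖ψ‖) ^ 2 / κ = κ * ‖h‖ ^ 2 - 2 * (‖ψ‖ * ‖h‖) + ‖ψ‖ ^ 2 / κ := by
      field_simp
      ring
    simp only [f]
    linarith
  have hne : (f '' H).Nonempty := ⟨_, 0, map_zero a, rfl⟩
  set I := sInf (f '' H) with hI
  have hlow : ∀ h, a h = 0 → I ≤ f h := fun h hh => csInf_le hbd ⟨h, hh, rfl⟩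
  have hseq : ∀ n : ℕ, ∃ h, a h = 0 ∧ f h < I + 1 / ((n : ℝ) + 1) := fun n => by
    obtain ⟨_, ⟨h, hh, rfl⟩, hlt⟩ := exists_lt_of_csInf_lt hne
      (show I < I + 1 / ((n : ℝ) + 1) from lt_add_of_pos_right _ (by positivity))
    exact ⟨h, hh, hlt⟩
  choose x hx0 hxf using hseq
  have hclose : ∀ n m N, N ≤ n → N ≤ m → κ * ‖x n - x m‖ ^ 2 ≤ 4 / ((N : ℝ) + 1) := by
    intro n m N hn hm
    have h1 := hlow ((1 / 2 : ℝ) • (x n + x m)) (by simp [hx0])
    have h2 := hco (x n - x m) (by simp [hx0])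
    have e : f (x n) + f (x m) - 2 * f ((1 / 2 : ℝ) • (x n + x m)) =
        (1 / 2) * Q (x n - x m) (x n - x m) := by
      simp only [f, map_add, map_sub, map_smul, add_apply, sub_apply, smul_apply, smul_eq_mul,
        hQs (x m) (x n)]
      ring
    have h3 : 1 / ((n : ℝ) + 1) ≤ 1 / ((N : ℝ) + 1) := by gcongr
    have h4 : 1 / ((m : ℝ) + 1) ≤ 1 / ((N : ℝ) + 1) := by gcongr
    rw [show (4 : ℝ) / ((N : ℝ) + 1) = 4 * (1 / ((N : ℝ) + 1)) by ring]
    linarith [hxf n, hxf m]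
  have hcau : CauchySeq x := by
    refine cauchySeq_of_le_tendsto_0 (fun N => Real.sqrt (4 / ((N : ℝ) + 1) / κ)) ?_ ?_
    · intro n m N hn hm
      rw [dist_eq_norm]
      refine Real.le_sqrt_of_sq_le ?_
      rw [le_div_iff₀' hκ]
      exact hclose n m N hn hm
    · have h : Tendsto (fun N : ℕ => 4 * (1 / ((N : ℝ) + 1)) / κ) atTop (𝓝 0) := by
        simpa using ((tendsto_one_div_add_atTop_nhds_zero_nat (𝕜 := ℝ)).const_mul 4).div_const κ
      simpa [div_eq_mul_inv] using h.sqrt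
  obtain ⟨r, hr⟩ := cauchySeq_tendsto_of_complete hcau
  have har : a r = 0 :=
    tendsto_nhds_unique ((a.continuous.tendsto r).comp hr)
      (tendsto_const_nhds.congr fun n => (hx0 n).symm)
  have hfr : f r ≤ I := by
    have hfc : Continuous f :=
      (Q.continuous.clm_apply continuous_id).sub (continuous_const.mul ψ.continuous)
    refine le_of_tendsto_of_tendsto ((hfc.tendsto r).comp hr) ?_
      (Eventually.of_forall fun n => (hxf n).le)
    simpa using (tendsto_one_div_add_atTop_nhds_zero_nat (𝕜 := ℝ)).const_add I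
  refine ⟨r, har, fun z hz => ?_⟩
  have hmin : IsLocalMin (fun t : ℝ => f r + t * (2 * Q r z - 2 * ψ z) + t ^ 2 * Q z z) 0 := by
    refine Eventually.of_forall fun t => ?_
    have h1 := hlow (r + t • z) (by simp [har, hz])
    have e : f (r + t • z) = f r + t * (2 * Q r z - 2 * ψ z) + t ^ 2 * Q z z := by
      simp only [f, map_add, map_smul, add_apply, smul_apply, smul_eq_mul, hQs z r]
      ring
    simp only [ne_eq, OfNat.ofNat_ne_zero, not_false_eq_true, zero_pow, zero_mul, add_zero]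
    linarith
  have hder : HasDerivAt (fun t : ℝ => f r + t * (2 * Q r z - 2 * ψ z) + t ^ 2 * Q z z)
      (2 * Q r z - 2 * ψ z) 0 := by
    refine ((((hasDerivAt_id' (0 : ℝ)).mul_const (2 * Q r z - 2 * ψ z)).const_add (f r)).add
      ((hasDerivAt_pow 2 (0 : ℝ)).mul_const (Q z z))).congr_deriv ?_
    simp
  linarith [hmin.hasDerivAt_eq_zero hder]

/-- The symmetry of second derivatives, scalar form. -/
lemma plane_symm {f : X → ℝ} {g : X → X →L[ℝ] ℝ} {y : X}
    (hf : ∀ᶠ u in 𝓝 y, HasFDerivAt f (g u) u) {a b : X} {Da Db : X →L[ℝ] ℝ}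
    (ha : HasFDerivAt (fun u => g u a) Da y) (hb : HasFDerivAt (fun u => g u b) Db y) :
    Da b = Db a := by
  let ι : ℝ × ℝ →L[ℝ] X :=
    (ContinuousLinearMap.fst ℝ ℝ ℝ).smulRight a + (ContinuousLinearMap.snd ℝ ℝ ℝ).smulRight b
  have hι : ∀ p, HasFDerivAt (fun p => y + ι p) ι p := fun p => ι.hasFDerivAt.const_add y
  let k : ℝ × ℝ → ℝ × ℝ →L[ℝ] ℝ := fun p =>
    g (y + ι p) a • ContinuousLinearMap.fst ℝ ℝ ℝ + g (y + ι p) b • ContinuousLinearMap.snd ℝ ℝ ℝ
  have hfirst : ∀ᶠ p in 𝓝 (0 : ℝ × ℝ), HasFDerivAt (fun p => f (y + ι p)) (k p) p := by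
    have hc : Tendsto (fun p => y + ι p) (𝓝 0) (𝓝 y) :=
      (show Continuous fun p => y + ι p by fun_prop).tendsto' 0 y (by simp)
    filter_upwards [hc.eventually hf] with p hp
    refine (hp.comp p (hι p)).congr_fderiv ?_
    refine ContinuousLinearMap.ext fun q => ?_
    simp [k, ι]
    ring
  have hsecond : HasFDerivAt k
      ((Da.comp ι).smulRight (ContinuousLinearMap.fst ℝ ℝ ℝ) +
        (Db.comp ι).smulRight (ContinuousLinearMap.snd ℝ ℝ ℝ)) 0 :=
    (((show HasFDerivAt (fun u => g u a) Da (y + ι 0) by simpa using ha).comp 0 (hι 0)).smul_const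
      (ContinuousLinearMap.fst ℝ ℝ ℝ)).add
      (((show HasFDerivAt (fun u => g u b) Db (y + ι 0) by simpa using hb).comp 0 (hι 0)).smul_const
      (ContinuousLinearMap.snd ℝ ℝ ℝ))
  have h := second_derivative_symmetric_of_eventually_of_real hfirst hsecond (0, 1) (1, 0)
  simpa [ι] using h

/-- A product of two differences that are Lipschitz at a point. -/
lemma hasFDerivAt_diff_mul {Z : Type*} [NormedAddCommGroup Z] [NormedSpace ℝ Z]
    {P : X → Z →L[ℝ] ℝ} {a : X → Z} {y : X} {L : ℝ} (hL : 0 ≤ L)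
    (hP : ∀ᶠ u in 𝓝 y, ‖P u - P y‖ ≤ L * ‖u - y‖)
    (ha : ∀ᶠ u in 𝓝 y, ‖a u - a y‖ ≤ L * ‖u - y‖) :
    HasFDerivAt (fun u => (P u - P y) (a u - a y)) (0 : X →L[ℝ] ℝ) y := by
  rw [hasFDerivAt_iff_isLittleO]
  refine (Asymptotics.IsBigO.of_bound (L * L) ?_).trans_isLittleO
    (Asymptotics.isLittleO_pow_sub_sub y one_lt_two)
  filter_upwards [hP, ha] with u h1 h2
  simp only [sub_self, map_zero, sub_zero, zero_apply]
  refine ((P u - P y).le_opNorm _).trans ?_
  rw [norm_pow, norm_norm]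
  calc ‖P u - P y‖ * ‖a u - a y‖ ≤ L * ‖u - y‖ * (L * ‖u - y‖) :=
        mul_le_mul h1 h2 (norm_nonneg _) (by positivity)
    _ = _ := by ring

namespace SphIso

variable (s : SphIso X Y)

/-- What holds at every curved point `y`. -/
structure Centre (y : X) : Prop where
  good : GoodAt y
  equiv : ∀ᶠ u in 𝓝 y, ∃ A : X ≃L[ℝ] Y, HasFDerivAt s.G (A : X →L[ℝ] Y) u ∧
    HasFDerivAt s.H (A.symm : Y →L[ℝ] X) (s.G u)
  lip : ∃ M : ℝ, 0 ≤ M ∧ ∀ᶠ u in 𝓝 y, ‖fderiv ℝ s.G u - fderiv ℝ s.G y‖ ≤ M * ‖u - y‖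
  diffY : ∀ᶠ w in 𝓝 (s.G y), DifferentiableAt ℝ (fun z : Y => ‖z‖) w
  diff2 : ∀ w ∈ [s.G y, (2 : ℝ) • s.G y], ∀ᶠ z in 𝓝 w, DifferentiableAt ℝ (fun z : Y => ‖z‖) z
  twice : ∀ᶠ w in 𝓝 (s.G y), DifferentiableAt ℝ (fun z : Y => dN z) w

include s

lemma dG_self_of_differentiable {u : X} (hd : DifferentiableAt ℝ s.G u) :
    fderiv ℝ s.G u u = s.G u := by
  have h1 : HasDerivAt (fun t : ℝ => s.G (u + t • u)) (fderiv ℝ s.G u u) 0 := by
    have : HasDerivAt (fun t : ℝ => u + t • u) u 0 := by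
      simpa using ((hasDerivAt_id (0 : ℝ)).smul_const u).const_add u
    exact hd.hasFDerivAt.comp_hasDerivAt_of_eq 0 this (by simp)
  have h2 : HasDerivAt (fun t : ℝ => s.G (u + t • u)) (s.G u) 0 := by
    have e : (fun t : ℝ => s.G (u + t • u)) = fun t => (1 + t) • s.G u := by
      funext t
      rw [← s.G_smul, add_smul, one_smul]
    rw [e]
    simpa using ((hasDerivAt_id (0 : ℝ)).const_add 1).smul_const (s.G u)
  exact h1.unique h2

lemma norm_dG_of_differentiable {u : X} (hu : u ≠ 0) (hd : DifferentiableAt ℝ s.G u)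
    (hn : DifferentiableAt ℝ (fun z : X => ‖z‖) u) {a : X} (ha : dN u a = 0) :
    ‖fderiv ℝ s.G u a‖ = ‖a‖ := by
  have hr : 0 < ‖u‖ := norm_pos_iff.2 hu
  have hl : HasDerivAt (fun t : ℝ => u + t • a) a 0 := by
    simpa using ((hasDerivAt_id (0 : ℝ)).smul_const a).const_add u
  have hnd : HasDerivAt (fun t : ℝ => ‖u + t • a‖) 0 0 := by
    have := hn.hasFDerivAt.comp_hasDerivAt_of_eq 0 hl (by simp)
    rwa [show fderiv ℝ (fun z : X => ‖z‖) u a = 0 from ha] at this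
  have hne : ‖u + (0 : ℝ) • a‖ ≠ 0 := by simp [hu]
  set γ : ℝ → X := fun t => (‖u‖ * ‖u + t • a‖⁻¹) • (u + t • a) with hγ
  have hγ0 : γ 0 = u := by simp [hγ, hr.ne']
  have hγd : HasDerivAt γ a 0 := by
    refine (((hnd.inv hne).const_mul ‖u‖).smul hl).congr_deriv ?_
    simp [hr.ne']
  have hGγ : HasDerivAt (fun t => s.G (γ t)) (fderiv ℝ s.G u a) 0 :=
    hd.hasFDerivAt.comp_hasDerivAt_of_eq 0 hγd hγ0.symm
  have hne' : ∀ᶠ t in 𝓝 (0 : ℝ), u + t • a ≠ 0 :=
    hl.continuousAt.tendsto.eventually_ne (by simpa using hu)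
  have hev : ∀ᶠ t in 𝓝[≠] (0 : ℝ),
      ‖t⁻¹ • (γ (0 + t) - γ 0)‖ = ‖t⁻¹ • (s.G (γ (0 + t)) - s.G (γ 0))‖ := by
    filter_upwards [hne'.filter_mono nhdsWithin_le_nhds] with t ht
    rw [zero_add, hγ0, norm_smul, norm_smul]
    congr 1
    have hxt : ‖‖u + t • a‖⁻¹ • (u + t • a)‖ = 1 := norm_smul_inv_norm ht
    have := s.key u _ hxt
    rw [← s.G_smul, smul_smul] at this
    rw [norm_sub_rev, ← this, norm_sub_rev]
  exact tendsto_nhds_unique hGγ.tendsto_slope_zero.norm (hγd.tendsto_slope_zero.norm.congr' hev)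

/-- The norm of the target is twice differentiable at the image of a curved point. -/
lemma twice_differentiable [CompleteSpace X] [CompleteSpace Y] {y : X} (hy : GoodAt y) {A : X ≃L[ℝ] Y}
    (hG : HasFDerivAt s.G (A : X →L[ℝ] Y) y)
    (hH : HasFDerivAt s.H (A.symm : Y →L[ℝ] X) (s.G y)) :
    DifferentiableAt ℝ (fun z : Y => dN z) (s.G y) := by
  have hv1 : ‖y‖ = 1 := hy.1
  set a := s.G y with ha_def
  have ha : ‖a‖ = 1 := by rw [ha_def, s.norm_G, hv1]
  have ha0 : a ≠ 0 := fun h => by simp [h] at ha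
  have hq := s.quadNear_G hv1 (quadNear_of_contDiffAt hy.2.1)
  have hdiff : ∀ {w : Y}, QuadNear w → ∀ᶠ z in 𝓝 w, DifferentiableAt ℝ (fun z : Y => ‖z‖) z := by
    rintro w ⟨r, hr, -, C, -, h⟩
    filter_upwards [ball_mem_nhds w hr] with z hz
    rw [mem_ball_iff_norm] at hz
    exact (h z hz).1
  have hC1 : ∀ {w : Y}, QuadNear w → ContDiffAt ℝ 1 (fun z : Y => ‖z‖) w := by
    rintro w ⟨r, hr, -, C, hC, h⟩
    rw [contDiffAt_one_iff]
    refine ⟨fun z => dN z, ball w (r / 4), ball_mem_nhds _ (by positivity), ?_, fun z hz => ?_⟩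
    · refine (LipschitzOnWith.of_dist_le' (K := 4 * C) fun z hz z' hz' => ?_).continuousOn
      rw [mem_ball_iff_norm] at hz hz'
      rw [dist_eq_norm, dist_eq_norm]
      exact norm_dN_sub_le hC h hz' hz
    · rw [mem_ball_iff_norm] at hz
      exact (h z (by linarith)).1.hasFDerivAt
  have hνa : dN a a = 1 := by rw [(hdiff hq).self_of_nhds.fderiv_norm_self, ha]
  have hna0 : -a ≠ 0 := neg_ne_zero.2 ha0
  have hHna : s.H (-a) = -y := by
    have := s.symm.G_neg a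
    rw [symm_G] at this
    rw [this, ha_def, s.H_G]
  let φ' : Y ≃L[ℝ] Y := ContinuousLinearEquiv.equivOfInverse
    (-(dN a).smulRight a - ContinuousLinearMap.id ℝ Y)
    ((2⁻¹ : ℝ) • (dN a).smulRight a - ContinuousLinearMap.id ℝ Y)
    (fun x => by simp [hνa]; module) (fun x => by simp [hνa]; module)
  set φ : Y → Y := fun x => ‖x‖ • a - x with hφ
  have hφd : HasFDerivAt φ (φ' : Y →L[ℝ] Y) (-a) := by
    refine (((hdiff hq.neg).self_of_nhds.hasFDerivAt.smul_const a).sub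
      (hasFDerivAt_id (-a))).congr_fderiv ?_
    show (dN (-a)).smulRight a - _ = _
    rw [dN_neg]
    ext x
    simp [φ']
  have hφc : ContDiffAt ℝ 1 φ (-a) := ((hC1 hq.neg).smul contDiffAt_const).sub contDiffAt_id
  have hφa : φ (-a) = (2 : ℝ) • a := by simp [hφ, ha, two_smul]
  set θ := hφc.localInverse hφd one_ne_zero with hθ
  have hθc : ContDiffAt ℝ 1 θ ((2 : ℝ) • a) := hφa ▸ hφc.to_localInverse hφd one_ne_zero
  have hθa : θ ((2 : ℝ) • a) = -a := hφa ▸ hφc.localInverse_apply_image hφd one_ne_zero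
  have hright : ∀ᶠ x in 𝓝 ((2 : ℝ) • a), φ (θ x) = x :=
    hφa ▸ (hφc.hasStrictFDerivAt' hφd one_ne_zero).eventually_right_inverse
  set Z : Y → Y := fun x => ‖θ x‖⁻¹ • θ x with hZ
  have hθ0 : θ ((2 : ℝ) • a) ≠ 0 := by rw [hθa]; exact hna0
  have hZa : Z ((2 : ℝ) • a) = -a := by simp [hZ, hθa, ha]
  have hZd : DifferentiableAt ℝ Z ((2 : ℝ) • a) := by
    have hθd := hθc.differentiableAt one_ne_zero
    have h1 : DifferentiableAt ℝ (fun x => ‖θ x‖) ((2 : ℝ) • a) :=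
      (show DifferentiableAt ℝ (fun z : Y => ‖z‖) (θ ((2 : ℝ) • a)) by
        rw [hθa]; exact (hdiff hq.neg).self_of_nhds).comp _ hθd
    exact (h1.inv (norm_ne_zero_iff.2 hθ0)).smul hθd
  have hHd : DifferentiableAt ℝ (fun x => s.H (Z x)) ((2 : ℝ) • a) := by
    have h1 : DifferentiableAt ℝ s.H (-a) := by
      have h2 : HasFDerivAt (fun z => s.H ((-1 : ℝ) • z))
          ((A.symm : Y →L[ℝ] X).comp ((-1 : ℝ) • ContinuousLinearMap.id ℝ Y)) (-a) :=
        (show HasFDerivAt s.H (A.symm : Y →L[ℝ] X) ((-1 : ℝ) • -a) by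
          simpa using hH).comp (-a) ((hasFDerivAt_id (-a)).const_smul (-1 : ℝ))
      simp only [s.H_smul] at h2
      simpa using h2.differentiableAt.const_smul (-1 : ℝ)
    exact (show DifferentiableAt ℝ s.H (Z ((2 : ℝ) • a)) by rw [hZa]; exact h1).comp _ hZd
  have hAv : A y = a := by
    have := s.dG_self_of_differentiable hG.differentiableAt
    rw [hG.fderiv] at this
    exact this
  have hnv : dN y y = 1 := hy.dN_self
  have hJa : A.symm a = y := by rw [← hAv, A.symm_apply_apply]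
  let T : Y → X →L[ℝ] Y := fun z => (A : X →L[ℝ] Y) - (dN y).smulRight z
  let T₀ : X ≃L[ℝ] Y := ContinuousLinearEquiv.equivOfInverse
    ((A : X →L[ℝ] Y) + (dN y).smulRight a)
    ((A.symm : Y →L[ℝ] X) - (2⁻¹ : ℝ) • ((dN y).comp (A.symm : Y →L[ℝ] X)).smulRight y)
    (fun x => by simp [hJa, hnv]; module)
    (fun x => by simp [hAv, hnv]; module)
  have hT0 : T (-a) = (T₀ : X →L[ℝ] Y) := by
    ext x; simp [T, T₀]
  let Rf : Y → X →L[ℝ] ℝ := fun z =>
    (dN (y - s.H z)).comp (ContinuousLinearMap.id ℝ X - (dN y).smulRight (s.H z))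
  have hqX := (quadNear_of_contDiffAt hy.2.1).smul two_pos
  have hd2 := (dN_double hy.2.1).1
  have hev : (fun x => dN x) =ᶠ[𝓝 ((2 : ℝ) • a)]
      fun x => (Rf (Z x)).comp (T (Z x)).inverse := by
    have hZc : ContinuousAt Z ((2 : ℝ) • a) := hZd.continuousAt
    have hTc : ContinuousAt (fun x => T (Z x)) ((2 : ℝ) • a) := by
      have : Continuous T := continuous_const.sub
        ((ContinuousLinearMap.smulRightL ℝ X Y (dN y)).continuous)
      exact this.continuousAt.comp hZc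
    have hTi : ∀ᶠ x in 𝓝 ((2 : ℝ) • a),
        T (Z x) ∈ Set.range ((↑) : (X ≃L[ℝ] Y) → X →L[ℝ] Y) :=
      hTc.eventually_mem (by rw [hZa, hT0]; exact T₀.nhds)
    have hchX : ∀ᶠ x in 𝓝 ((2 : ℝ) • a),
        DifferentiableAt ℝ (fun z : X => ‖z‖) (y - s.H (Z x)) := by
      obtain ⟨r, hr, -, C, -, h⟩ := hqX
      have hc : Tendsto (fun x => y - s.H (Z x)) (𝓝 ((2 : ℝ) • a)) (𝓝 ((2 : ℝ) • y)) := by
        have := (continuousAt_const (y := y)).sub hHd.continuousAt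
        have e : y - s.H (Z ((2 : ℝ) • a)) = (2 : ℝ) • y := by rw [hZa, hHna, two_smul]; abel
        simpa [ContinuousAt, e, Pi.sub_def] using this
      filter_upwards [hc (ball_mem_nhds _ hr)] with x hx
      exact (h _ (mem_ball_iff_norm.1 hx)).1
    have hchY : ∀ᶠ x in 𝓝 ((2 : ℝ) • a),
        DifferentiableAt ℝ (fun z : Y => ‖z‖) (a - Z x) := by
      have hc : Tendsto (fun x => a - Z x) (𝓝 ((2 : ℝ) • a)) (𝓝 ((2 : ℝ) • a)) := by
        have := (continuousAt_const (y := a)).sub hZc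
        have e : a - Z ((2 : ℝ) • a) = (2 : ℝ) • a := by rw [hZa, two_smul]; abel
        simpa [ContinuousAt, e, Pi.sub_def] using this
      exact hc.eventually (hdiff (hq.smul two_pos))
    filter_upwards [hright, hTi, hchX, hchY, hθc.continuousAt.eventually_ne hθ0]
      with x hx hxT hxX hxY hx0
    obtain ⟨e, he⟩ := hxT
    have hz1 : ‖Z x‖ = 1 := norm_smul_inv_norm hx0
    have hxe : x = ‖θ x‖ • (a - Z x) := by
      conv_lhs => rw [← hx]
      simp [hφ, hZ, smul_sub, smul_smul, hx0]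
    have hdn : dN x = dN (a - Z x) := by
      conv_lhs => rw [hxe]
      exact dN_smul_pos _ (norm_pos_iff.2 hx0)
    have hn := (hy.2.1.self_of_nhds.differentiableAt (by norm_num)).hasFDerivAt
    have hfun : (fun v' => ‖s.G v' - ‖v'‖ • Z x‖) = fun v' => ‖v' - ‖v'‖ • s.H (Z x)‖ := by
      funext v'
      have := s.key v' (s.H (Z x)) (by rw [s.norm_H, hz1])
      rwa [s.G_H] at this
    have h1 : HasFDerivAt (fun v' => ‖s.G v' - ‖v'‖ • Z x‖) ((dN (a - Z x)).comp (T (Z x))) y :=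
      (show HasFDerivAt (fun x : Y => ‖x‖) (dN (a - Z x)) (s.G y - ‖y‖ • Z x) by
        rw [hv1, one_smul]; exact hxY.hasFDerivAt).comp y (hG.sub (hn.smul_const (Z x)))
    have h2 : HasFDerivAt (fun v' => ‖v' - ‖v'‖ • s.H (Z x)‖) (Rf (Z x)) y :=
      (show HasFDerivAt (fun x : X => ‖x‖) (dN (y - s.H (Z x))) (y - ‖y‖ • s.H (Z x)) by
        rw [hv1, one_smul]; exact hxX.hasFDerivAt).comp y
        ((hasFDerivAt_id y).sub (hn.smul_const (s.H (Z x))))
    rw [hfun] at h1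
    rw [hdn, ← h1.unique h2, ← he, ContinuousLinearMap.inverse_equiv]
    ext k
    simp
  have hRd : DifferentiableAt ℝ (fun x => Rf (Z x)) ((2 : ℝ) • a) := by
    refine DifferentiableAt.clm_comp ?_ ?_
    · exact (show DifferentiableAt ℝ (fun z : X => dN z) (y - s.H (Z ((2 : ℝ) • a))) by
        rw [hZa, hHna, sub_neg_eq_add, ← two_smul ℝ y]; exact hd2.differentiableAt).comp
          ((2 : ℝ) • a) ((differentiableAt_const y).sub hHd)
    · exact (differentiableAt_const (ContinuousLinearMap.id ℝ X)).sub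
        ((ContinuousLinearMap.smulRightL ℝ X X (dN y)).differentiableAt.comp ((2 : ℝ) • a) hHd)
  have hTd : DifferentiableAt ℝ (fun x => T (Z x)) ((2 : ℝ) • a) :=
    (differentiableAt_const (A : X →L[ℝ] Y)).sub
      ((ContinuousLinearMap.smulRightL ℝ X Y (dN y)).differentiableAt.comp ((2 : ℝ) • a) hZd)
  have hi : DifferentiableAt ℝ (ContinuousLinearMap.inverse : (X →L[ℝ] Y) → Y →L[ℝ] X)
      (T (Z ((2 : ℝ) • a))) := by
    rw [hZa, hT0]
    exact (contDiffAt_map_inverse (n := 1) T₀).differentiableAt one_ne_zero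
  have h2a : DifferentiableAt ℝ (fun z : Y => dN z) ((2 : ℝ) • a) :=
    (hRd.clm_comp (DifferentiableAt.comp (f := fun x => T (Z x))
      (g := (ContinuousLinearMap.inverse : (X →L[ℝ] Y) → Y →L[ℝ] X)) ((2 : ℝ) • a) hi hTd)
      ).congr_of_eventuallyEq hev
  have := h2a.comp a ((differentiableAt_id).const_smul (2 : ℝ))
  simpa only [Function.comp_def, id, dN_smul_pos _ two_pos] using this

/-- Every curved point is a centre. -/
lemma centre [CompleteSpace X] [CompleteSpace Y] {y : X} (hy : GoodAt y) : Centre s y := by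
  have hq := s.quadNear_G hy.1 (quadNear_of_contDiffAt hy.2.1)
  have hdiff : ∀ {w : Y}, QuadNear w → ∀ᶠ z in 𝓝 w, DifferentiableAt ℝ (fun z : Y => ‖z‖) z := by
    rintro w ⟨r, hr, -, C, -, h⟩
    filter_upwards [ball_mem_nhds w hr] with z hz
    exact (h z (mem_ball_iff_norm.1 hz)).1
  have hreg : ∀ {u : X}, GoodAt u → ∃ M, 0 ≤ M ∧ ∃ σ : ℝ, 0 < σ ∧ ∀ z, ‖z - u‖ < σ →
      ∃ A : X ≃L[ℝ] Y, HasFDerivAt s.G (A : X →L[ℝ] Y) z ∧
        HasFDerivAt s.H (A.symm : Y →L[ℝ] X) (s.G z) ∧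
        ∀ z', ‖z' - u‖ < σ → ∀ A' : X →L[ℝ] Y, HasFDerivAt s.G A' z' →
          ‖A' - (A : X →L[ℝ] Y)‖ ≤ M * ‖z' - z‖ := by
    intro u hu
    obtain ⟨R, -, σ, hσ, C, hC, c, hc, ht⟩ := s.exists_tests hu
    obtain ⟨M, hM, h⟩ := s.exists_regular hσ hC hc ht
    refine ⟨M, hM, σ / 6, by positivity, fun z hz => ?_⟩
    obtain ⟨A, h1, h2, -, h4⟩ := h z hz
    exact ⟨A, h1, h2, h4⟩
  obtain ⟨M, hM, σ, hσ, h⟩ := hreg hy
  refine ⟨hy, ?_, ⟨M, hM, ?_⟩, hdiff hq, ?_, ?_⟩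
  · filter_upwards [ball_mem_nhds y hσ] with u hu
    obtain ⟨A, h1, h2, -⟩ := h u (mem_ball_iff_norm.1 hu)
    exact ⟨A, h1, h2⟩
  · filter_upwards [ball_mem_nhds y hσ] with u hu
    rw [mem_ball_iff_norm] at hu
    obtain ⟨A, h1, -, h4⟩ := h y (by simpa using hσ)
    obtain ⟨A', h1', -, -⟩ := h u hu
    rw [h1.fderiv, h1'.fderiv]
    exact h4 u hu _ h1'
  · intro w hw
    simp only [List.mem_cons, List.not_mem_nil, or_false] at hw
    rcases hw with rfl | rfl
    · exact hdiff hq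
    · exact hdiff (hq.smul two_pos)
  · have hyn : ‖s.G y‖ = 1 := by rw [s.norm_G, hy.1]
    have hw0 : s.G y ≠ 0 := fun e => by simp [e] at hyn
    have hcw : Tendsto (fun w : Y => s.H (‖w‖⁻¹ • w)) (𝓝 (s.G y)) (𝓝 y) := by
      have h1 : ContinuousAt (fun w : Y => ‖w‖⁻¹ • w) (s.G y) :=
        (continuous_norm.continuousAt.inv₀ (by rw [hyn]; exact one_ne_zero)).smul continuousAt_id
      have := s.symm.continuous_G.continuousAt.comp h1
      simpa [ContinuousAt, Function.comp_def, hyn, s.H_G] using this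
    filter_upwards [hcw.eventually hy.eventually, eventually_ne_nhds hw0] with w hw hwne
    have hu : GoodAt (s.H (‖w‖⁻¹ • w)) := hw (by
      rw [s.norm_H]; exact norm_smul_inv_norm hwne)
    obtain ⟨M', -, σ', hσ', h'⟩ := hreg hu
    obtain ⟨A, h1, h2, -⟩ := h' (s.H (‖w‖⁻¹ • w)) (by simpa using hσ')
    have h3 := s.twice_differentiable hu h1 h2
    rw [s.G_H] at h3
    have hp : 0 < ‖w‖⁻¹ := inv_pos.2 (norm_pos_iff.2 hwne)
    have := h3.comp w ((differentiableAt_id).const_smul ‖w‖⁻¹)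
    simpa only [Function.comp_def, id, dN_smul_pos _ hp] using this

end SphIso

end Vale.Agent.P084
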