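import Mathlib

/-!
P084 (Tingley's problem), library for arbitrary dimension: a totally symmetric tensor satisfying
the norming identity vanishes. No compactness is used; extremal vectors are replaced by
approximately extremal sequences.
-/

namespace Vale.Agent.P084

open Filter Topology

variable {V : Type*} [NormedAddCommGroup V] [NormedSpace ℝ V]

/-- The algebraic data at a curved point. -/
structure CubicData (Q : V →L[ℝ] V →L[ℝ] ℝ) (B : V →L[ℝ] V →L[ℝ] V) (κ : ℝ) : Prop where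
  pos : 0 < κ
  coercive : ∀ x, κ * ‖x‖ ^ 2 ≤ Q x x
  symQ : ∀ a b, Q a b = Q b a
  symB : ∀ a b, B a b = B b a
  total : ∀ a b c, Q a (B b c) = Q b (B a c)
  ident : ∀ ξ : V, ξ ≠ 0 → ∃ (p : V →L[ℝ] ℝ) (δ : ℝ), |δ| ≤ 2 ∧ (∀ w, |p w| ≤ ‖w‖) ∧
    p ξ = ‖ξ‖ ∧ ∀ η, p (B η ξ) = Q η ξ * δ

namespace CubicData

variable {Q : V →L[ℝ] V →L[ℝ] ℝ} {B : V →L[ℝ] V →L[ℝ] V} {κ : ℝ}

/-- The deviation of `B e` from rank one. -/
noncomputable def dev (Q : V →L[ℝ] V →L[ℝ] ℝ) (B : V →L[ℝ] V →L[ℝ] V) (d : ℝ) (e : V) :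
    V →L[ℝ] V :=
  B e - d • (Q e).smulRight e

lemma dev_apply (d : ℝ) (e z : V) : dev Q B d e z = B e z - (d * Q e z) • e := by
  simp [dev, smul_smul]

lemma abs_Q_le (x y : V) {K L : ℝ} (hx : ‖x‖ ≤ K) (hy : ‖y‖ ≤ L) :
    |Q x y| ≤ ‖Q‖ * K * L := by
  have hQ : 0 ≤ ‖Q‖ := ContinuousLinearMap.opNorm_nonneg _
  have hK : 0 ≤ K := (norm_nonneg x).trans hx
  exact (Q.le_opNorm₂ x y).trans (by gcongr)

lemma norm_B_le (x y : V) {K L : ℝ} (hx : ‖x‖ ≤ K) (hy : ‖y‖ ≤ L) :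
    ‖B x y‖ ≤ ‖B‖ * K * L := by
  have hB : 0 ≤ ‖B‖ := ContinuousLinearMap.opNorm_nonneg _
  have hK : 0 ≤ K := (norm_nonneg x).trans hx
  exact (B.le_opNorm₂ x y).trans (by gcongr)

lemma abs_cubic_le (x y z : V) {K : ℝ} (hx : ‖x‖ ≤ K) (hy : ‖y‖ ≤ K) (hz : ‖z‖ ≤ K) :
    |Q x (B y z)| ≤ ‖Q‖ * ‖B‖ * K ^ 3 :=
  (abs_Q_le x _ hx (norm_B_le y z hy hz)).trans_eq (by ring)

variable (h : CubicData Q B κ)
include h

lemma nonneg (x : V) : 0 ≤ Q x x :=
  (mul_nonneg h.pos.le (sq_nonneg ‖x‖)).trans (h.coercive x)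

lemma norm_le_sqrt (x : V) : ‖x‖ ≤ Real.sqrt κ⁻¹ * Real.sqrt (Q x x) := by
  rw [← Real.sqrt_mul (inv_nonneg.2 h.pos.le), ← Real.sqrt_sq (norm_nonneg x)]
  refine Real.sqrt_le_sqrt ?_
  rw [inv_mul_eq_div, le_div_iff₀' h.pos]
  exact h.coercive x

lemma tendsto_zero {r : ℕ → V} (hr : Tendsto (fun n => Q (r n) (r n)) atTop (𝓝 0)) :
    Tendsto r atTop (𝓝 0) := by
  refine squeeze_zero_norm (fun n => h.norm_le_sqrt (r n)) ?_
  simpa using hr.sqrt.const_mul (Real.sqrt κ⁻¹)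

lemma unit_bounds : ∃ a b : ℝ, 0 < a ∧ 0 < b ∧ ∀ x, Q x x = 1 → a ≤ ‖x‖ ∧ ‖x‖ ≤ b := by
  have hQ : 0 ≤ ‖Q‖ := ContinuousLinearMap.opNorm_nonneg _
  refine ⟨Real.sqrt (‖Q‖ + 1)⁻¹, Real.sqrt κ⁻¹, Real.sqrt_pos.2 (by positivity),
    Real.sqrt_pos.2 (inv_pos.2 h.pos), fun x hx => ⟨?_, ?_⟩⟩
  · rw [← Real.sqrt_sq (norm_nonneg x)]
    refine Real.sqrt_le_sqrt ?_
    rw [inv_le_iff_one_le_mul₀ (by positivity), mul_comm]
    have := Q.le_opNorm₂ x x
    rw [Real.norm_eq_abs, hx, abs_one] at this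
    nlinarith [sq_nonneg ‖x‖]
  · simpa [hx] using h.norm_le_sqrt x

lemma normalise {x : V} (hx : x ≠ 0) : ∃ r : ℝ, 0 < r ∧ r ^ 2 = Q x x ∧
    Q (r⁻¹ • x) (r⁻¹ • x) = 1 := by
  have hq : 0 < Q x x :=
    lt_of_lt_of_le (mul_pos h.pos (pow_pos (norm_pos_iff.2 hx) 2)) (h.coercive x)
  refine ⟨Real.sqrt (Q x x), Real.sqrt_pos.2 hq, Real.sq_sqrt hq.le, ?_⟩
  simp only [map_smul, smul_apply, smul_eq_mul]
  field_simp
  rw [Real.sq_sqrt hq.le]

/-- The supremum of the cubic form on the unit vectors of a hyperplane or of the whole space. -/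
lemma exists_sup (ℓ : V →L[ℝ] ℝ) {v : V} (hv : ℓ v = 0) (hv0 : v ≠ 0) :
    ∃ D : ℝ, 0 ≤ D ∧ (∀ x, ℓ x = 0 → ∀ s, 0 < s → Q x x ≤ s ^ 2 → |Q x (B x x)| ≤ D * s ^ 3) ∧
      ∀ ε, 0 < ε → ∃ x, ℓ x = 0 ∧ Q x x = 1 ∧ D - ε < Q x (B x x) ∧ Q x (B x x) ≤ D := by
  obtain ⟨a, b, ha, hb, hab⟩ := h.unit_bounds
  set S : Set ℝ := (fun x => Q x (B x x)) '' {x | ℓ x = 0 ∧ Q x x = 1} with hS
  have hbdd : BddAbove S := by
    refine ⟨‖Q‖ * ‖B‖ * b ^ 3, ?_⟩
    rintro _ ⟨x, ⟨-, hx⟩, rfl⟩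
    exact (le_abs_self _).trans (abs_cubic_le x x x (hab x hx).2 (hab x hx).2 (hab x hx).2)
  set D := sSup S with hD
  have hne : S.Nonempty := by
    obtain ⟨r, -, -, h2⟩ := h.normalise hv0
    exact ⟨_, _, ⟨by simp [hv], h2⟩, rfl⟩
  have hle : ∀ x, ℓ x = 0 → Q x x = 1 → Q x (B x x) ≤ D :=
    fun x h1 h2 => le_csSup hbdd ⟨x, ⟨h1, h2⟩, rfl⟩
  have habs : ∀ x, ℓ x = 0 → Q x x = 1 → |Q x (B x x)| ≤ D := fun x h1 h2 => by
    refine abs_le.2 ⟨?_, hle x h1 h2⟩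
    have := hle (-x) (by simp [h1]) (by simpa using h2)
    simp at this
    linarith
  have hD0 : 0 ≤ D := by
    obtain ⟨r, -, -, h2⟩ := h.normalise hv0
    exact (abs_nonneg _).trans (habs (r⁻¹ • v) (by simp [hv]) h2)
  refine ⟨D, hD0, fun x hx s hs hxs => ?_, fun ε hε => ?_⟩
  · rcases eq_or_ne x 0 with rfl | hx0
    · simp only [map_zero, abs_zero]
      positivity
    obtain ⟨r, hr, hr2, h2⟩ := h.normalise hx0
    have hrs : r ≤ s := (pow_le_pow_iff_left₀ hr.le hs.le two_ne_zero).1 (hr2 ▸ hxs)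
    have h3 := habs (r⁻¹ • x) (by simp [hx]) h2
    have e : Q x (B x x) = r ^ 3 * Q (r⁻¹ • x) (B (r⁻¹ • x) (r⁻¹ • x)) := by
      simp only [map_smul, smul_apply, smul_eq_mul]
      field_simp
    rw [e, abs_mul, abs_of_pos (pow_pos hr 3), mul_comm D]
    exact mul_le_mul (pow_le_pow_left₀ hr.le hrs 3) h3 (abs_nonneg _) (by positivity)
  · obtain ⟨_, ⟨x, ⟨h1, h2⟩, rfl⟩, hx⟩ :=
      exists_lt_of_lt_csSup hne (show D - ε < sSup S by rw [← hD]; linarith)
    exact ⟨x, h1, h2, hx, hle x h1 h2⟩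

/-- The cubic form along a line in a critical direction. -/
lemma expand {f r : V} (t : ℝ) (hffr : Q r (B f f) = Q r r) :
    Q (f + t • r) (B (f + t • r) (f + t • r)) =
      Q f (B f f) + 3 * t * Q r r + 3 * t ^ 2 * Q f (B r r) + t ^ 3 * Q r (B r r) := by
  have s1 : Q f (B r f) = Q r r := by rw [← h.total, hffr]
  have s2 : Q f (B f r) = Q r r := by rw [h.symB, s1]
  have s3 : Q r (B f r) = Q f (B r r) := h.total _ _ _
  have s4 : Q r (B r f) = Q f (B r r) := by rw [h.symB, s3]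
  simp only [map_add, map_smul, add_apply, smul_apply, smul_eq_mul, s1, s2, s3, s4, hffr]
  ring

/-- The scalar inequality at a near maximiser. -/
lemma step {f r : V} {D t b K : ℝ} (hf : Q f f = 1) (hfr : Q f r = 0)
    (hffr : Q r (B f f) = Q r r) (hfb : ‖f‖ ≤ b) (hr : ‖r‖ ≤ K) (hD : 0 ≤ D) (hDK : D ≤ K)
    (ht0 : 0 < t) (ht1 : t ≤ 1) (htq : t * (‖Q‖ * K * K) ≤ 1)
    (hbound : ∀ s : ℝ, 0 < s → Q (f + t • r) (f + t • r) ≤ s ^ 2 →
      |Q (f + t • r) (B (f + t • r) (f + t • r))| ≤ D * s ^ 3) :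
    3 * t * Q r r ≤ (D - Q f (B f f)) +
      t ^ 2 * (7 * (‖Q‖ * K * K) * K + 4 * (‖Q‖ * ‖B‖ * (b + K) ^ 3)) := by
  have hK : 0 ≤ K := (norm_nonneg r).trans hr
  have hb : 0 ≤ b := (norm_nonneg f).trans hfb
  have hQ : 0 ≤ ‖Q‖ := ContinuousLinearMap.opNorm_nonneg _
  have hq0 := h.nonneg r
  have hqb : Q r r ≤ ‖Q‖ * K * K := (le_abs_self _).trans (abs_Q_le r r hr hr)
  have hx : Q (f + t • r) (f + t • r) = 1 + t ^ 2 * Q r r := by
    simp only [map_add, map_smul, add_apply, smul_apply, smul_eq_mul, hf, hfr, h.symQ r f]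
    ring
  have hsq : 0 ≤ t ^ 2 * Q r r := mul_nonneg (sq_nonneg t) hq0
  have hc := (abs_le.1 (hbound (1 + t ^ 2 * Q r r) (by linarith) (by rw [hx]; nlinarith))).2
  rw [h.expand t hffr] at hc
  have b1 := (abs_le.1 (abs_cubic_le (Q := Q) (B := B) f r r (K := b + K) (by linarith)
    (by linarith) (by linarith))).1
  have b2 := (abs_le.1 (abs_cubic_le (Q := Q) (B := B) r r r (K := b + K) (by linarith)
    (by linarith) (by linarith))).1
  set W := ‖Q‖ * ‖B‖ * (b + K) ^ 3 with hW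
  have hW0 : 0 ≤ W := by
    have : 0 ≤ ‖B‖ := ContinuousLinearMap.opNorm_nonneg _
    positivity
  have hu : t ^ 2 * Q r r ≤ 1 := by nlinarith
  have h3 : (1 + t ^ 2 * Q r r) ^ 3 ≤ 1 + 7 * (t ^ 2 * Q r r) := by
    nlinarith [mul_nonneg hsq (sub_nonneg.2 hu)]
  have h4 := hc.trans (mul_le_mul_of_nonneg_left h3 hD)
  have h5 : D * Q r r ≤ K * (‖Q‖ * K * K) := mul_le_mul hDK hqb hq0 hK
  have h5' := mul_le_mul_of_nonneg_left h5 (sq_nonneg t)
  have h6 := mul_le_mul_of_nonneg_left b2 (show 0 ≤ t ^ 3 by positivity)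
  have h7 := mul_le_mul_of_nonneg_left b1 (show 0 ≤ t ^ 2 by positivity)
  have h8 := mul_le_mul_of_nonneg_right (pow_le_pow_of_le_one ht0.le ht1 (show 2 ≤ 3 by norm_num)) hW0
  linarith

/-- Near maximisers of the cubic form are near eigenvectors. -/
lemma near_critical {f r : ℕ → V} {D : ℕ → ℝ} {K : ℝ} (hK : 0 ≤ K)
    (hf : ∀ n, Q (f n) (f n) = 1) (hfr : ∀ n, Q (f n) (r n) = 0)
    (hffr : ∀ n, Q (r n) (B (f n) (f n)) = Q (r n) (r n)) (hr : ∀ n, ‖r n‖ ≤ K)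
    (hD : ∀ n, D n ≤ K ∧ 0 ≤ D n)
    (hlim : Tendsto (fun n => D n - Q (f n) (B (f n) (f n))) atTop (𝓝 0))
    (hbound : ∀ n, ∀ t s : ℝ, 0 < s → Q (f n + t • r n) (f n + t • r n) ≤ s ^ 2 →
      |Q (f n + t • r n) (B (f n + t • r n) (f n + t • r n))| ≤ D n * s ^ 3) :
    Tendsto (fun n => Q (r n) (r n)) atTop (𝓝 0) := by
  obtain ⟨a, b, ha, hb, hab⟩ := h.unit_bounds
  have hQ : 0 ≤ ‖Q‖ := ContinuousLinearMap.opNorm_nonneg _
  have hB : 0 ≤ ‖B‖ := ContinuousLinearMap.opNorm_nonneg _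
  set q₀ := ‖Q‖ * K * K with hq₀
  set L := 7 * q₀ * K + 4 * (‖Q‖ * ‖B‖ * (b + K) ^ 3) + 1 with hL
  have hL0 : 0 < L := by positivity
  refine tendsto_order.2 ⟨fun e he => Eventually.of_forall fun n => he.trans_le (h.nonneg _),
    fun e he => ?_⟩
  set t := min 1 (min (1 / (q₀ + 1)) (e / L)) with ht
  have ht0 : 0 < t := by positivity
  have ht1 : t ≤ 1 := min_le_left _ _
  have htq : t * q₀ ≤ 1 := by
    have := (min_le_right 1 (min (1 / (q₀ + 1)) (e / L))).trans (min_le_left _ _)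
    rw [← ht, le_div_iff₀ (by positivity)] at this
    linarith
  have htL : t * L ≤ e := by
    have := (min_le_right 1 (min (1 / (q₀ + 1)) (e / L))).trans (min_le_right _ _)
    rwa [← ht, le_div_iff₀ hL0] at this
  filter_upwards [hlim.eventually_lt_const (show 0 < t * e by positivity)] with n hn
  have h1 := h.step (hf n) (hfr n) (hffr n) (hab _ (hf n)).2 (hr n) (hD n).2 (hD n).1 ht0 ht1
    htq (hbound n t)
  have h2 := mul_le_mul_of_nonneg_left htL ht0.le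
  have h3 : t * (3 * Q (r n) (r n)) < t * (2 * e) := by
    have : 0 ≤ t ^ 2 := sq_nonneg t
    rw [hL] at h2
    linarith
  have := lt_of_mul_lt_mul_left h3 ht0.le
  linarith

lemma dev_symm (d : ℝ) (e u z : V) : Q (dev Q B d e u) z = Q u (dev Q B d e z) := by
  simp only [dev_apply, map_sub, map_smul, sub_apply, smul_apply, smul_eq_mul]
  rw [h.symQ (B e u) z, h.total z e u, h.total u e z, h.symB u z, h.symQ u e]
  ring

omit h in
lemma norm_dev_le (d : ℝ) {e : V} {b : ℝ} (he : ‖e‖ ≤ b) (z : V) :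
    ‖dev Q B d e z‖ ≤ (‖B‖ * b + |d| * (‖Q‖ * b) * b) * ‖z‖ := by
  rw [dev_apply]
  refine (norm_sub_le _ _).trans ?_
  rw [norm_smul, Real.norm_eq_abs, abs_mul]
  have h1 := norm_B_le (B := B) e z he le_rfl
  have h2 := mul_le_mul (mul_le_mul_of_nonneg_left (abs_Q_le (Q := Q) e z he le_rfl) (abs_nonneg d))
    he (norm_nonneg e) (mul_nonneg (abs_nonneg d) ((abs_nonneg _).trans (abs_Q_le e z he le_rfl)))
  linarith

/-- An almost extremal vector of a self-adjoint operator. -/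
lemma extremal {T : V →L[ℝ] V} (hT : ∀ u z, Q (T u) z = Q u (T z)) {M b : ℝ} (hM : 0 ≤ M)
    (hb : ∀ x, Q x x = 1 → ‖x‖ ≤ b) (hTn : ∀ z, ‖T z‖ ≤ M * ‖z‖) {u₀ : V} (hu₀ : Q u₀ u₀ = 1)
    {ε : ℝ} (hε : 0 < ε) :
    ∃ σ v, 0 ≤ σ ∧ σ ≤ ‖Q‖ * (M * b) * (M * b) ∧ (∀ z, Q (T z) (T z) ≤ σ * Q z z) ∧ Q v v = 1 ∧
      Q (T (T v) - σ • v) (T (T v) - σ • v) ≤ σ * ε := by
  set S : Set ℝ := (fun z => Q (T z) (T z)) '' {z | Q z z = 1} with hS
  have hTb : ∀ z, Q z z = 1 → Q (T z) (T z) ≤ ‖Q‖ * (M * b) * (M * b) := fun z hz => by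
    have := (hTn z).trans (mul_le_mul_of_nonneg_left (hb z hz) hM)
    exact (le_abs_self _).trans (abs_Q_le _ _ this this)
  have hbdd : BddAbove S := ⟨_, by rintro _ ⟨z, hz, rfl⟩; exact hTb z hz⟩
  have hne : S.Nonempty := ⟨_, u₀, hu₀, rfl⟩
  set σ := sSup S with hσ
  have hσ0 : 0 ≤ σ := (h.nonneg (T u₀)).trans (le_csSup hbdd ⟨u₀, hu₀, rfl⟩)
  have hσle : ∀ z, Q (T z) (T z) ≤ σ * Q z z := by
    intro z
    rcases eq_or_ne z 0 with rfl | hz
    · simp
    obtain ⟨r, hr0, hr2, h1⟩ := h.normalise hz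
    have h2 := le_csSup hbdd ⟨r⁻¹ • z, h1, rfl⟩
    simp only [map_smul, smul_apply, smul_eq_mul] at h2
    rw [← hr2]
    calc Q (T z) (T z) = r⁻¹ * (r⁻¹ * Q (T z) (T z)) * r ^ 2 := by field_simp
      _ ≤ _ := mul_le_mul_of_nonneg_right h2 (sq_nonneg r)
  obtain ⟨_, ⟨v, hv, rfl⟩, hlt⟩ := exists_lt_of_lt_csSup hne
    (show σ - ε < sSup S from sub_lt_self _ hε)
  refine ⟨σ, v, hσ0, csSup_le hne (by rintro _ ⟨z, hz, rfl⟩; exact hTb z hz), hσle, hv, ?_⟩
  have hv' : Q v v = 1 := hv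
  have h1 := hσle (T v)
  have h2 : Q v (T (T v)) = Q (T v) (T v) := (hT v _).symm
  simp only [map_sub, map_smul, sub_apply, smul_apply, smul_eq_mul, h.symQ (T (T v)) v, h2, hv']
  have h4 := mul_le_mul_of_nonneg_left (show σ - Q (T v) (T v) ≤ ε by linarith) hσ0
  nlinarith

/-- The identity at a near eigenvector of the deviation. -/
lemma eig_bound {d l b : ℝ} {e u : V} (he : ‖e‖ ≤ b) :
    l ^ 2 * ‖u‖ ≤ |l| * ‖dev Q B d e u - l • u‖ + (|d| * b + 2) *
      (‖Q‖ * ‖dev Q B d e e‖ * ‖u‖ + ‖Q‖ * b * ‖dev Q B d e u - l • u‖) := by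
  have hb : 0 ≤ b := (norm_nonneg e).trans he
  have hQ : 0 ≤ ‖Q‖ := ContinuousLinearMap.opNorm_nonneg _
  set E := dev Q B d e u - l • u with hE
  rcases eq_or_ne u 0 with rfl | hu0
  · rw [norm_zero, mul_zero]
    positivity
  obtain ⟨p, δ, hδ, hp, hpu, hid⟩ := h.ident u hu0
  have e1 : B e u = E + l • u + (d * Q e u) • e := by
    rw [hE, dev_apply]; abel
  have e2 := hid e
  rw [e1, map_add, map_add, map_smul, map_smul, hpu, smul_eq_mul, smul_eq_mul] at e2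
  have e3 : |l| * ‖u‖ ≤ ‖E‖ + (|d| * b + 2) * |Q e u| := by
    rw [← abs_norm u, ← abs_mul, show l * ‖u‖ = Q e u * δ - p E - d * Q e u * p e by linarith]
    refine (abs_sub _ _).trans ?_
    have := abs_sub (Q e u * δ) (p E)
    have b1 : |Q e u * δ| ≤ |Q e u| * 2 := by
      rw [abs_mul]; exact mul_le_mul_of_nonneg_left hδ (abs_nonneg _)
    have b2 : |d * Q e u * p e| ≤ |d| * |Q e u| * b := by
      rw [abs_mul, abs_mul]
      exact mul_le_mul_of_nonneg_left ((hp _).trans he) (by positivity)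
    linarith [hp E]
  have e4 : |l| * |Q e u| ≤ ‖Q‖ * ‖dev Q B d e e‖ * ‖u‖ + ‖Q‖ * b * ‖E‖ := by
    rw [← abs_mul, show l * Q e u = Q (dev Q B d e e) u - Q e E by
      rw [hE, map_sub, map_smul, h.dev_symm, smul_eq_mul]; ring]
    exact (abs_sub _ _).trans (add_le_add (abs_Q_le _ _ le_rfl le_rfl) (abs_Q_le _ _ he le_rfl))
  rw [← sq_abs, sq, mul_assoc]
  refine (mul_le_mul_of_nonneg_left e3 (abs_nonneg l)).trans ?_
  rw [mul_add, mul_left_comm]
  gcongr

/-- A near eigenvector of `B e` forces the rest of `B e` to be small. -/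
lemma sharp {d : ℝ} {e : ℕ → V} (he : ∀ n, Q (e n) (e n) = 1)
    (hee : Tendsto (fun n => dev Q B d (e n) (e n)) atTop (𝓝 0)) {x : ℕ → V} {K : ℝ}
    (hx : ∀ n, ‖x n‖ ≤ K) :
    Tendsto (fun n => dev Q B d (e n) (x n)) atTop (𝓝 0) := by
  obtain ⟨a, b, ha, hb, hab⟩ := h.unit_bounds
  have hQ : 0 ≤ ‖Q‖ := ContinuousLinearMap.opNorm_nonneg _
  have hB : 0 ≤ ‖B‖ := ContinuousLinearMap.opNorm_nonneg _
  set M := ‖B‖ * b + |d| * (‖Q‖ * b) * b with hM
  have hM0 : 0 ≤ M := by positivity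
  choose σ v hσ0 hσb hσle hv1 hv2 using fun n : ℕ => h.extremal (T := dev Q B d (e n))
    (h.dev_symm d (e n)) hM0 (fun z hz => (hab z hz).2) (norm_dev_le d (hab _ (he n)).2) (he n)
    (show (0 : ℝ) < 1 / ((n : ℝ) + 1) by positivity)
  set P := ‖Q‖ * (M * b) * (M * b) with hP
  set E : ℕ → V := fun n => dev Q B d (e n) (dev Q B d (e n) (v n)) - σ n • v n with hE
  have hElim : Tendsto E atTop (𝓝 0) := by
    refine h.tendsto_zero (squeeze_zero (fun n => h.nonneg _) (fun n => (hv2 n).trans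
      (mul_le_mul_of_nonneg_right (hσb n) (by positivity))) ?_)
    simpa using (tendsto_one_div_add_atTop_nhds_zero_nat (𝕜 := ℝ)).const_mul P
  set N := Real.sqrt P with hN
  have hN0 : 0 ≤ N := Real.sqrt_nonneg _
  set U := M * b + N * b with hU
  set Bd : ℕ → ℝ := fun n => N * ‖E n‖ + (|d| * b + 2) *
    (‖Q‖ * ‖dev Q B d (e n) (e n)‖ * U + ‖Q‖ * b * ‖E n‖) with hBd
  have hBdlim : Tendsto Bd atTop (𝓝 0) := by
    simpa [hBd] using (hElim.norm.const_mul N).add ((((hee.norm.const_mul ‖Q‖).mul_const U).add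
      (hElim.norm.const_mul (‖Q‖ * b))).const_mul (|d| * b + 2))
  have key : ∀ n, ∀ l : ℝ, l ^ 2 = σ n →
      σ n * ‖dev Q B d (e n) (v n) + l • v n‖ ≤ Bd n := by
    intro n l hl
    have hlN : |l| ≤ N := by
      rw [← Real.sqrt_sq_eq_abs, hl]
      exact Real.sqrt_le_sqrt (hσb n)
    set u := dev Q B d (e n) (v n) + l • v n with hu
    have hEu : dev Q B d (e n) u - l • u = E n := by
      simp only [hu, hE, map_add, map_smul, ← hl]
      module
    have hub : ‖u‖ ≤ U := by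
      refine (norm_add_le _ _).trans (add_le_add ((norm_dev_le d (hab _ (he n)).2 _).trans ?_) ?_)
      · exact mul_le_mul_of_nonneg_left (hab _ (hv1 n)).2 hM0
      · rw [norm_smul, Real.norm_eq_abs]
        exact mul_le_mul hlN (hab _ (hv1 n)).2 (norm_nonneg _) hN0
    have := h.eig_bound (d := d) (l := l) (u := u) (hab _ (he n)).2
    rw [hEu, hl] at this
    refine this.trans ?_
    simp only [hBd]
    gcongr
  have hsum : Tendsto (fun n => σ n * Real.sqrt (σ n)) atTop (𝓝 0) := by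
    refine squeeze_zero (fun n => mul_nonneg (hσ0 n) (Real.sqrt_nonneg _)) (fun n => ?_)
      (show Tendsto (fun n => Bd n / a) atTop (𝓝 0) by simpa using hBdlim.div_const a)
    rw [le_div_iff₀ ha]
    have k1 := key n (Real.sqrt (σ n)) (Real.sq_sqrt (hσ0 n))
    have k2 := key n (-Real.sqrt (σ n)) (by rw [neg_sq]; exact Real.sq_sqrt (hσ0 n))
    have h1 : 2 * Real.sqrt (σ n) * ‖v n‖ ≤ ‖dev Q B d (e n) (v n) + Real.sqrt (σ n) • v n‖ +
        ‖dev Q B d (e n) (v n) + (-Real.sqrt (σ n)) • v n‖ := by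
      refine le_trans (le_of_eq ?_) (norm_sub_le _ _)
      rw [show dev Q B d (e n) (v n) + Real.sqrt (σ n) • v n -
        (dev Q B d (e n) (v n) + (-Real.sqrt (σ n)) • v n) = (2 * Real.sqrt (σ n)) • v n by module,
        norm_smul, Real.norm_of_nonneg (by positivity)]
    have h2 := mul_le_mul_of_nonneg_left (hab _ (hv1 n)).1
      (show 0 ≤ 2 * Real.sqrt (σ n) * σ n by have := hσ0 n; positivity)
    have h3 := mul_le_mul_of_nonneg_left h1 (hσ0 n)
    linarith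
  have hσlim : Tendsto σ atTop (𝓝 0) := by
    refine tendsto_order.2 ⟨fun z hz => Eventually.of_forall fun n => hz.trans_le (hσ0 n),
      fun z hz => ?_⟩
    filter_upwards [hsum.eventually_lt_const (show 0 < z * Real.sqrt z by positivity)] with n hn
    by_contra hcon
    push Not at hcon
    linarith [mul_le_mul hcon (Real.sqrt_le_sqrt hcon) (Real.sqrt_nonneg z) (hσ0 n)]
  refine h.tendsto_zero (squeeze_zero (fun n => h.nonneg _) (fun n => (hσle n (x n)).trans ?_)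
    (show Tendsto (fun n => σ n * (‖Q‖ * K * K)) atTop (𝓝 0) by
      simpa using hσlim.mul_const (‖Q‖ * K * K)))
  exact mul_le_mul_of_nonneg_left
    ((le_abs_self _).trans (abs_Q_le _ _ (hx n) (hx n))) (hσ0 n)

/-- A vanishing cubic form gives a vanishing tensor. -/
lemma eq_zero_of_cubic (hc : ∀ u, Q u (B u u) = 0) (x z : V) : B x z = 0 := by
  have h2 : ∀ u w, Q w (B u u) = 0 := fun u w => by
    have e1 := hc (w + u)
    have e2 := hc (w - u)
    have s1 : Q w (B u w) = Q u (B w w) := h.total _ _ _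
    have s2 : Q u (B w u) = Q w (B u u) := h.total _ _ _
    rw [h.symB w u] at s2
    simp only [map_add, map_sub, add_apply, sub_apply, h.symB w u, hc, s1, s2] at e1 e2
    linarith
  have hB : ∀ u, B u u = 0 := fun u => by
    have := h.coercive (B u u)
    rw [h2] at this
    have h0 : ‖B u u‖ ^ 2 ≤ 0 := nonpos_of_mul_nonpos_right this h.pos
    simpa using le_antisymm h0 (sq_nonneg _)
  have := hB (x + z)
  simp only [map_add, add_apply, hB, h.symB z x, zero_add, add_zero] at this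
  rw [← two_smul ℝ] at this
  exact (smul_eq_zero.1 this).resolve_left two_ne_zero

/-- Polarisation of the bound on a hyperplane. -/
lemma polar {e v w : V} {D : ℝ} (hD : 0 ≤ D)
    (hDb : ∀ x, Q e x = 0 → ∀ s, 0 < s → Q x x ≤ s ^ 2 → |Q x (B x x)| ≤ D * s ^ 3)
    (hev : Q e v = 0) (hv : Q v v = 1) (hew : Q e w = 0) (hww : Q w w = Q w (B v v)) :
    ‖w‖ ≤ 3 * Real.sqrt κ⁻¹ * D := by
  rcases eq_or_ne w 0 with rfl | hw0
  · rw [norm_zero]; positivity
  refine (h.norm_le_sqrt w).trans ?_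
  rw [mul_comm 3, mul_assoc]
  refine mul_le_mul_of_nonneg_left ?_ (Real.sqrt_nonneg _)
  obtain ⟨r, hr, hr2, huu⟩ := h.normalise hw0
  rw [← hr2, Real.sqrt_sq hr.le]
  set u := r⁻¹ • w with hu
  have hue : Q e u = 0 := by simp [hu, hew]
  have hug : Q u (B v v) = r := by
    rw [hu, map_smul, smul_apply, smul_eq_mul, ← hww, ← hr2]
    field_simp
  have huv : |Q u v| ≤ 1 := by
    have h1 := h.nonneg (u + v)
    have h2 := h.nonneg (u - v)
    simp only [map_add, map_sub, add_apply, sub_apply, huu, hv, h.symQ v u] at h1 h2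
    rw [abs_le]; constructor <;> linarith
  have c1 := hDb (u + v) (by simp [hue, hev]) 2 two_pos (by
    simp only [map_add, add_apply, huu, hv, h.symQ v u]
    linarith [(abs_le.1 huv).2])
  have c2 := hDb (u - v) (by simp [hue, hev]) 2 two_pos (by
    simp only [map_sub, sub_apply, huu, hv, h.symQ v u]
    linarith [(abs_le.1 huv).1])
  have c3 := hDb u hue 1 one_pos (by rw [huu, one_pow])
  have s2 : Q v (B u v) = Q u (B v v) := h.total _ _ _
  have key : Q (u + v) (B (u + v) (u + v)) + Q (u - v) (B (u - v) (u - v)) -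
      2 * Q u (B u u) = 6 * r := by
    simp only [map_add, map_sub, add_apply, sub_apply, h.symB v u, s2, hug]
    ring
  rw [abs_le] at c1 c2 c3
  linarith

/-- The first use of the identity: the second supremum is not small. -/
lemma first_bound {d a b t D : ℝ} {e v : V} (hd : 0 ≤ d) (ht : 0 < t) (htb : t * b = a / 4)
    (he : Q e e = 1) (hv : Q v v = 1) (hev : Q e v = 0) (hea : a ≤ ‖e‖) (heb : ‖e‖ ≤ b)
    (hvb : ‖v‖ ≤ b) (hD : 0 ≤ D)
    (hDb : ∀ x, Q e x = 0 → ∀ s, 0 < s → Q x x ≤ s ^ 2 → |Q x (B x x)| ≤ D * s ^ 3) :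
    d * a / 2 ≤ 3 * Real.sqrt κ⁻¹ * D + (‖dev Q B d e (e + t • v)‖ +
      (1 / t + ‖Q‖ * b * b) * ‖dev Q B d e v‖) := by
  set ξ := e + t • v with hξ
  set E₁ := dev Q B d e ξ with hE₁
  set E₂ := dev Q B d e v with hE₂
  have hQeξ : Q e ξ = 1 := by simp [hξ, he, hev]
  have hξ0 : ξ ≠ 0 := fun e0 => by simp [e0] at hQeξ
  obtain ⟨p, δ, -, hp, hpξ, hid⟩ := h.ident ξ hξ0
  have hbev : B e v = E₂ := by simp [hE₂, dev_apply, hev]
  have i1 : p E₁ + d * p e = δ := by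
    have := hid e
    rw [hQeξ, one_mul, show B e ξ = E₁ + d • e by simp [hE₁, dev_apply, hQeξ],
      map_add, map_smul, smul_eq_mul] at this
    exact this
  have i2 : p E₂ + t * p (B v v) = t * δ := by
    have := hid v
    rw [show Q v ξ = t by simp [hξ, h.symQ v e, hev, hv],
      show B v ξ = E₂ + t • B v v by simp [hξ, ← hbev, h.symB v e],
      map_add, map_smul, smul_eq_mul] at this
    exact this
  have hpe : a / 2 ≤ p e := by
    have e1 : p ξ = p e + t * p v := by simp [hξ]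
    have e2 : ‖e‖ - t * ‖v‖ ≤ ‖ξ‖ := by
      have := norm_sub_le ξ (t • v)
      rw [hξ, add_sub_cancel_right, norm_smul, Real.norm_of_nonneg ht.le] at this
      rw [hξ]; linarith
    have e3 := mul_le_mul_of_nonneg_left ((le_abs_self _).trans ((hp v).trans hvb)) ht.le
    have e4 := mul_le_mul_of_nonneg_left hvb ht.le
    linarith
  set g := B v v with hg
  have hmain : d * a / 2 ≤ ‖g‖ + ‖E₁‖ + 1 / t * ‖E₂‖ := by
    have : p g = p E₁ + d * p e - 1 / t * p E₂ := by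
      field_simp
      linear_combination i2 - t * i1
    have := mul_le_mul_of_nonneg_left hpe hd
    have := mul_le_mul_of_nonneg_left ((le_abs_self _).trans (hp E₂))
      (show 0 ≤ 1 / t by positivity)
    linarith [(le_abs_self _).trans (hp g), (neg_le_abs _).trans (hp E₁)]
  set c := Q e g with hc
  have hcb : |c| ≤ ‖Q‖ * b * ‖E₂‖ := by
    have e1 : c = Q v E₂ := by rw [hc, hg, h.total e v v, hbev]
    rw [e1]
    exact abs_Q_le _ _ hvb le_rfl
  set w := g - c • e with hw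
  have hwe : Q e w = 0 := by simp [hw, hc, he]
  have hww : Q w w = Q w g := by
    have : Q w e = 0 := by rw [h.symQ]; exact hwe
    rw [hw] at this ⊢
    rw [map_sub (Q (g - c • e)), map_smul, this, smul_zero, sub_zero]
  have hwn := h.polar hD hDb hev hv hwe hww
  have hgn : ‖g‖ ≤ ‖w‖ + |c| * b := by
    have := norm_add_le w (c • e)
    rw [hw, sub_add_cancel, norm_smul, Real.norm_eq_abs, ← hw] at this
    exact this.trans (by gcongr)
  have := mul_le_mul_of_nonneg_right hcb ((norm_nonneg e).trans heb)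
  linarith

/-- The second use of the identity: two eigenvectors are contradictory. -/
lemma second_bound {d ψ : ℝ} {e f : V} (hd : 0 < d) (hψ : 0 < ψ) (he : Q e e = 1)
    (hf : Q f f = 1) (hef : Q e f = 0) :
    Real.sqrt (d ^ 2 / (‖Q‖ + 1)) ≤ 1 / d * ‖dev Q B d e (d • e - ψ • f)‖ +
      d / ψ * ‖dev Q B d e f‖ + ‖B f f - ψ • f‖ := by
  set ζ := d • e - ψ • f with hζ
  set E₁ := dev Q B d e ζ with hE₁
  set E₂ := dev Q B d e f with hE₂
  set r := B f f - ψ • f with hr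
  have hQeζ : Q e ζ = d := by simp [hζ, he, hef]
  have hζ0 : ζ ≠ 0 := fun e0 => by
    rw [e0, map_zero] at hQeζ
    exact hd.ne hQeζ
  obtain ⟨p, δ, -, hp, hpζ, hid⟩ := h.ident ζ hζ0
  have hbef : B e f = E₂ := by simp [hE₂, dev_apply, hef]
  have i1 : p E₁ + d * d * p e = d * δ := by
    have := hid e
    rw [hQeζ, show B e ζ = E₁ + (d * d) • e by simp [hE₁, dev_apply, hQeζ], map_add,
      map_smul, smul_eq_mul] at this
    exact this
  have i2 : d * p E₂ - ψ * p r - ψ * ψ * p f = -ψ * δ := by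
    have := hid f
    rw [show Q f ζ = -ψ by simp [hζ, h.symQ f e, hef, hf],
      show B f ζ = d • E₂ - ψ • r - (ψ * ψ) • f by
        simp only [hζ, hr, ← hbef, map_sub, map_smul, h.symB f e]
        module,
      map_sub, map_sub, map_smul, map_smul, map_smul, smul_eq_mul, smul_eq_mul,
      smul_eq_mul] at this
    exact this
  have hpz : ‖ζ‖ = -(1 / d) * p E₁ - d / ψ * p E₂ + p r := by
    rw [← hpζ]
    simp only [hζ, map_sub, map_smul, smul_eq_mul]
    field_simp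
    linear_combination ψ * i1 + d * i2
  have hbig : Real.sqrt (d ^ 2 / (‖Q‖ + 1)) ≤ ‖ζ‖ := by
    have hQ : 0 ≤ ‖Q‖ := ContinuousLinearMap.opNorm_nonneg _
    rw [← Real.sqrt_sq (norm_nonneg ζ)]
    refine Real.sqrt_le_sqrt ?_
    rw [div_le_iff₀ (by positivity)]
    have h1 := (le_abs_self _).trans (Q.le_opNorm₂ ζ ζ)
    have h2 : Q ζ ζ = d ^ 2 + ψ ^ 2 := by
      simp [hζ, he, hef, hf, h.symQ f e]
      ring
    nlinarith [sq_nonneg ψ, sq_nonneg ‖ζ‖]
  have u1 := mul_le_mul_of_nonneg_left ((neg_le_abs _).trans (hp E₁))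
    (show 0 ≤ 1 / d by positivity)
  have u2 := mul_le_mul_of_nonneg_left ((neg_le_abs _).trans (hp E₂))
    (show 0 ≤ d / ψ by positivity)
  linarith [(le_abs_self _).trans (hp r)]

/-- A near maximiser is a near eigenvector. -/
lemma dev_tendsto {d : ℝ} (hd : 0 ≤ d) {e : ℕ → V} (he : ∀ n, Q (e n) (e n) = 1)
    (hlim : Tendsto (fun n => d - Q (e n) (B (e n) (e n))) atTop (𝓝 0))
    (hdb : ∀ x, ∀ s, 0 < s → Q x x ≤ s ^ 2 → |Q x (B x x)| ≤ d * s ^ 3) :
    Tendsto (fun n => dev Q B d (e n) (e n)) atTop (𝓝 0) := by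
  obtain ⟨a, b, ha, hb, hab⟩ := h.unit_bounds
  have hQ : 0 ≤ ‖Q‖ := ContinuousLinearMap.opNorm_nonneg _
  have hB : 0 ≤ ‖B‖ := ContinuousLinearMap.opNorm_nonneg _
  set R₀ := ‖B‖ * b * b + ‖Q‖ * ‖B‖ * b ^ 3 * b with hR₀
  have heb : ∀ n, ‖e n‖ ≤ b := fun n => (hab _ (he n)).2
  set φ : ℕ → ℝ := fun n => Q (e n) (B (e n) (e n)) with hφ
  have hr := h.tendsto_zero (h.near_critical (f := e) (r := fun n => B (e n) (e n) - φ n • e n)
    (D := fun _ => d) (K := R₀ + d) (by positivity) he (fun n => by simp [hφ, he])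
    (fun n => by
      have : Q (B (e n) (e n) - φ n • e n) (e n) = 0 := by
        rw [h.symQ]; simp [hφ, he]
      rw [map_sub (Q (B (e n) (e n) - φ n • e n)), map_smul, this, smul_zero, sub_zero])
    (fun n => by
      refine (norm_sub_le _ _).trans ?_
      rw [norm_smul, Real.norm_eq_abs]
      have h1 := norm_B_le (B := B) _ _ (heb n) (heb n)
      have h2 := mul_le_mul (abs_cubic_le (Q := Q) (B := B) _ _ _ (heb n) (heb n) (heb n)) (heb n)
        (norm_nonneg _) (by positivity)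
      rw [hR₀]; linarith)
    (fun n => ⟨le_add_of_nonneg_left (by positivity), hd⟩) hlim (fun n t s hs ht => hdb _ s hs ht))
  have h2 : Tendsto (fun n => (φ n - d) • e n) atTop (𝓝 0) := by
    refine squeeze_zero_norm (fun n => ?_)
      (show Tendsto (fun n => ‖d - φ n‖ * b) atTop (𝓝 0) by simpa using hlim.norm.mul_const b)
    rw [norm_smul, norm_sub_rev]
    exact mul_le_mul_of_nonneg_left (heb n) (norm_nonneg _)
  have h3 := hr.add h2
  rw [add_zero] at h3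
  refine h3.congr fun n => ?_
  rw [dev_apply, he, mul_one]
  module

/-- A near maximiser on a hyperplane is a near eigenvector. -/
lemma second_tendsto {d c : ℝ} {e f : ℕ → V} {D : ℕ → ℝ} (he : ∀ n, Q (e n) (e n) = 1)
    (hf : ∀ n, Q (f n) (f n) = 1) (hef : ∀ n, Q (e n) (f n) = 0) (hD : ∀ n, D n ≤ c ∧ 0 ≤ D n)
    (hlim : Tendsto (fun n => D n - Q (f n) (B (f n) (f n))) atTop (𝓝 0))
    (hDb : ∀ n x, Q (e n) x = 0 → ∀ s, 0 < s → Q x x ≤ s ^ 2 → |Q x (B x x)| ≤ D n * s ^ 3)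
    (hTf : Tendsto (fun n => dev Q B d (e n) (f n)) atTop (𝓝 0)) :
    Tendsto (fun n => B (f n) (f n) - Q (f n) (B (f n) (f n)) • f n) atTop (𝓝 0) := by
  obtain ⟨a, b, ha, hb, hab⟩ := h.unit_bounds
  have hQ : 0 ≤ ‖Q‖ := ContinuousLinearMap.opNorm_nonneg _
  have hB : 0 ≤ ‖B‖ := ContinuousLinearMap.opNorm_nonneg _
  have heb : ∀ n, ‖e n‖ ≤ b := fun n => (hab _ (he n)).2
  have hfb : ∀ n, ‖f n‖ ≤ b := fun n => (hab _ (hf n)).2
  have hc : 0 ≤ c := (hD 0).2.trans (hD 0).1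
  set r : ℕ → V := fun n => B (f n) (f n) - Q (f n) (B (f n) (f n)) • f n with hr
  set R₀ := ‖B‖ * b * b + ‖Q‖ * ‖B‖ * b ^ 3 * b with hR₀
  have hrb : ∀ n, ‖r n‖ ≤ R₀ := fun n => by
    refine (norm_sub_le _ _).trans ?_
    rw [norm_smul, Real.norm_eq_abs]
    exact add_le_add (norm_B_le _ _ (hfb n) (hfb n))
      (mul_le_mul (abs_cubic_le _ _ _ (hfb n) (hfb n) (hfb n)) (hfb n) (norm_nonneg _)
        (by positivity))
  set cf : ℕ → ℝ := fun n => Q (e n) (r n) with hcf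
  have hcflim : Tendsto cf atTop (𝓝 0) := by
    refine squeeze_zero_norm (fun n => ?_)
      (show Tendsto (fun n => ‖Q‖ * b * ‖dev Q B d (e n) (f n)‖) atTop (𝓝 0) by
        simpa using hTf.norm.const_mul (‖Q‖ * b))
    show |cf n| ≤ _
    rw [show cf n = Q (f n) (dev Q B d (e n) (f n)) by
      simp [hcf, hr, hef, dev_apply, h.total (e n) (f n) (f n)]]
    exact abs_Q_le _ _ (hfb n) le_rfl
  have hr' : Tendsto (fun n => r n - cf n • e n) atTop (𝓝 0) := by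
    refine h.tendsto_zero (h.near_critical (f := f) (D := D)
      (K := R₀ + ‖Q‖ * b * R₀ * b + c) (by positivity) hf (fun n => ?_) (fun n => ?_) (fun n => ?_)
      (fun n => ⟨(hD n).1.trans (le_add_of_nonneg_left (by positivity)), (hD n).2⟩) hlim
      (fun n t s hs ht => hDb n _ (by simp [hcf, hr, hef, he]) s hs ht))
    · simp [hr, hf, h.symQ (f n) (e n), hef]
    · set w := r n - cf n • e n with hw
      have h1 : Q w (e n) = 0 := by rw [h.symQ]; simp [hw, hcf, he]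
      have h2 : Q w (f n) = 0 := by
        rw [h.symQ]; simp [hw, hr, hf, h.symQ (f n) (e n), hef]
      have h3 : B (f n) (f n) = w + cf n • e n + Q (f n) (B (f n) (f n)) • f n := by
        simp [hw, hr]
      rw [h3, map_add, map_add, map_smul, map_smul, h1, h2, smul_zero, smul_zero, add_zero,
        add_zero]
    · refine (norm_sub_le _ _).trans ?_
      rw [norm_smul, Real.norm_eq_abs]
      have := mul_le_mul (abs_Q_le (Q := Q) (e n) (r n) (heb n) (hrb n)) (heb n) (norm_nonneg _)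
        (by positivity)
      linarith [hrb n]
  have h2 : Tendsto (fun n => cf n • e n) atTop (𝓝 0) := by
    refine squeeze_zero_norm (fun n => ?_)
      (show Tendsto (fun n => ‖cf n‖ * b) atTop (𝓝 0) by simpa using hcflim.norm.mul_const b)
    rw [norm_smul]
    exact mul_le_mul_of_nonneg_left (heb n) (norm_nonneg _)
  simpa using hr'.add h2

/-- **The tensor vanishes.** -/
theorem eq_zero (hdim : ∀ e : V, ∃ v, v ≠ 0 ∧ Q e v = 0) (x z : V) : B x z = 0 := by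
  obtain ⟨v₀, hv₀, -⟩ := hdim 0
  obtain ⟨d, hd0, hdb, hdn⟩ := h.exists_sup 0 (v := v₀) rfl hv₀
  rcases hd0.eq_or_lt with rfl | hd
  · refine h.eq_zero_of_cubic (fun u => ?_) x z
    have := hdb u rfl (Real.sqrt (Q u u) + 1) (by positivity) (by
      nlinarith [Real.sq_sqrt (h.nonneg u), Real.sqrt_nonneg (Q u u)])
    simpa using this
  exfalso
  obtain ⟨a, b, ha, hb, hab⟩ := h.unit_bounds
  have hQ : 0 ≤ ‖Q‖ := ContinuousLinearMap.opNorm_nonneg _
  have hB : 0 ≤ ‖B‖ := ContinuousLinearMap.opNorm_nonneg _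
  have h1n : Tendsto (fun n : ℕ => (1 : ℝ) / ((n : ℝ) + 1)) atTop (𝓝 0) :=
    tendsto_one_div_add_atTop_nhds_zero_nat
  choose e _ he1 he2 he3 using fun n : ℕ => hdn _ (show (0 : ℝ) < 1 / ((n : ℝ) + 1) by positivity)
  have heb : ∀ n, ‖e n‖ ≤ b := fun n => (hab _ (he1 n)).2
  have hgap : Tendsto (fun n => d - Q (e n) (B (e n) (e n))) atTop (𝓝 0) :=
    squeeze_zero (fun n => sub_nonneg.2 (he3 n)) (fun n => by linarith [he2 n]) h1n
  have hee := h.dev_tendsto hd.le he1 hgap (fun u s hs hu => hdb u rfl s hs hu)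
  choose v' hv'0 hv'e using fun n => hdim (e n)
  choose ρ hρ0 hρ2 hv1 using fun n => h.normalise (hv'0 n)
  have hve : ∀ n, Q (e n) ((ρ n)⁻¹ • v' n) = 0 := fun n => by simp [hv'e]
  have hvb : ∀ n, ‖(ρ n)⁻¹ • v' n‖ ≤ b := fun n => (hab _ (hv1 n)).2
  choose D hD0 hDb hDn using fun n => h.exists_sup (Q (e n)) (hv'e n) (hv'0 n)
  have hTv := h.sharp he1 hee hvb
  set t := a / (4 * b) with ht
  have ht0 : 0 < t := by positivity
  have htb : t * b = a / 4 := by rw [ht]; field_simp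
  have hξb : ∀ n, ‖e n + t • (ρ n)⁻¹ • v' n‖ ≤ b + t * b := fun n => by
    refine (norm_add_le _ _).trans (add_le_add (heb n) ?_)
    rw [norm_smul, Real.norm_of_nonneg ht0.le]
    exact mul_le_mul_of_nonneg_left (hvb n) ht0.le
  have hTξ := h.sharp he1 hee hξb
  have hsk : 0 < Real.sqrt κ⁻¹ := Real.sqrt_pos.2 (inv_pos.2 h.pos)
  set c₀ := d * a / (12 * Real.sqrt κ⁻¹) with hc₀
  have hc0 : 0 < c₀ := by positivity
  have hDlow : ∀ᶠ n in atTop, c₀ ≤ D n := by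
    have hlim := hTξ.norm.add (hTv.norm.const_mul (1 / t + ‖Q‖ * b * b))
    rw [norm_zero, mul_zero, add_zero] at hlim
    filter_upwards [hlim.eventually_lt_const (show 0 < d * a / 4 by positivity)] with n hn
    have h1 := h.first_bound hd.le ht0 htb (he1 n) (hv1 n) (hve n) (hab _ (he1 n)).1 (heb n)
      (hvb n) (hD0 n) (hDb n)
    rw [hc₀, div_le_iff₀ (by positivity)]
    linarith
  choose f hfe hf1 hf2 hf3 using fun n : ℕ =>
    hDn n _ (show (0 : ℝ) < 1 / ((n : ℝ) + 1) by positivity)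
  set ψ : ℕ → ℝ := fun n => Q (f n) (B (f n) (f n)) with hψ
  have hfb : ∀ n, ‖f n‖ ≤ b := fun n => (hab _ (hf1 n)).2
  have hψb : ∀ n, |ψ n| ≤ ‖Q‖ * ‖B‖ * b ^ 3 := fun n =>
    abs_cubic_le _ _ _ (hfb n) (hfb n) (hfb n)
  have hDK : ∀ n, D n ≤ ‖Q‖ * ‖B‖ * b ^ 3 + 1 := fun n => by
    have h2 : (1 : ℝ) / ((n : ℝ) + 1) ≤ 1 := by
      rw [div_le_one (by positivity)]
      linarith [(n.cast_nonneg : (0 : ℝ) ≤ n)]
    linarith [hf2 n, (le_abs_self _).trans (hψb n)]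
  have hTf := h.sharp he1 hee hfb
  have hr0 := h.second_tendsto he1 hf1 hfe (fun n => ⟨hDK n, hD0 n⟩)
    (squeeze_zero (fun n => sub_nonneg.2 (hf3 n)) (fun n => by linarith [hf2 n]) h1n) hDb hTf
  have hζb : ∀ n, ‖d • e n - ψ n • f n‖ ≤ d * b + ‖Q‖ * ‖B‖ * b ^ 3 * b := fun n => by
    refine (norm_sub_le _ _).trans (add_le_add ?_ ?_) <;> rw [norm_smul, Real.norm_eq_abs]
    · rw [abs_of_pos hd]; exact mul_le_mul_of_nonneg_left (heb n) hd.le
    · exact mul_le_mul (hψb n) (hfb n) (norm_nonneg _) (by positivity)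
  have hTζ := h.sharp he1 hee hζb
  have hlim := ((hTζ.norm.const_mul (1 / d)).add (hTf.norm.const_mul (d * (2 / c₀)))).add hr0.norm
  rw [norm_zero, mul_zero, mul_zero, add_zero, add_zero] at hlim
  obtain ⟨n, hn1, hn2, hn3⟩ := ((hlim.eventually_lt_const
    (show 0 < Real.sqrt (d ^ 2 / (‖Q‖ + 1)) by positivity)).and
      (hDlow.and (h1n.eventually_lt_const (half_pos hc0)))).exists
  have hψ0 : c₀ / 2 ≤ ψ n := by linarith [hf2 n]
  have h2 := h.second_bound hd (show 0 < ψ n by linarith) (he1 n) (hf1 n) (hfe n)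
  have h3 : d / ψ n * ‖dev Q B d (e n) (f n)‖ ≤ d * (2 / c₀) * ‖dev Q B d (e n) (f n)‖ := by
    refine mul_le_mul_of_nonneg_right ?_ (norm_nonneg _)
    rw [mul_div_assoc', div_le_div_iff₀ (by linarith) hc0]
    nlinarith
  linarith

end CubicData

end Vale.Agent.P084
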