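import Vale.Agent.P084.Inf.Weak

/-!
P084 (Tingley's problem), library for arbitrary dimension: the identities satisfied by the second
derivative of the extension at a curved point.
-/

namespace Vale.Agent.P084

open Filter Topology Metric

variable {X Y : Type*} [NormedAddCommGroup X] [NormedSpace ℝ X] [NormedAddCommGroup Y]
  [NormedSpace ℝ Y]

namespace SphIso.Centre

variable {s : SphIso X Y} {y : X} (hy : s.Centre y) {B : X →L[ℝ] X →L[ℝ] X}
  (hB : ∀ (φ : Y →L[ℝ] ℝ) (c : X),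
    HasFDerivAt (fun u => φ (s.dG u c)) ((φ.comp (s.dG y)).comp (B.flip c)) y)
include hy hB

lemma B_symm (a b : X) : B a b = B b a := by
  obtain ⟨A, hA, -⟩ := hy.equiv.self_of_nhds
  refine A.injective ((SeparatingDual.eq_iff_forall_dual_eq (R := ℝ)).2 fun φ => ?_)
  have hf : ∀ᶠ u in 𝓝 y, HasFDerivAt (fun u => φ (s.G u)) (φ.comp (s.dG u)) u :=
    hy.diffG.mono fun u hu => φ.hasFDerivAt.comp u hu.hasFDerivAt
  have h := plane_symm hf (a := a) (b := b) (hB φ a) (hB φ b)
  have hAe : s.dG y = (A : X →L[ℝ] Y) := hA.fderiv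
  rw [hAe] at h
  exact h.symm

lemma B_self (c : X) : B y c = 0 := by
  obtain ⟨A, hA, -⟩ := hy.equiv.self_of_nhds
  refine A.injective ((SeparatingDual.eq_iff_forall_dual_eq (R := ℝ)).2 fun φ => ?_)
  rw [map_zero, map_zero]
  have hl : HasDerivAt (fun t : ℝ => y + t • y) y 0 := by
    simpa using ((hasDerivAt_id (0 : ℝ)).smul_const y).const_add y
  have h1 : HasDerivAt (fun t : ℝ => φ (s.dG (y + t • y) c)) (φ (A (B y c))) 0 := by
    have := (hB φ c).comp_hasDerivAt_of_eq 0 hl (by simp)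
    simpa [Function.comp_def, show s.dG y = (A : X →L[ℝ] Y) from hA.fderiv] using this
  have h2 : (fun t : ℝ => φ (s.dG (y + t • y) c)) =ᶠ[𝓝 0] fun _ => φ (s.dG y c) := by
    filter_upwards [eventually_gt_nhds (show (-1 : ℝ) < 0 by norm_num)] with t ht
    have hne : (1 + t) ≠ 0 := by linarith
    rw [show y + t • y = (1 + t) • y by rw [add_smul, one_smul]]
    have h : HasFDerivAt s.G (A : X →L[ℝ] Y) ((1 + t) • y) := by
      have hs : HasFDerivAt (fun z : X => (1 + t) • s.G ((1 + t)⁻¹ • z))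
          ((1 + t) • (A : X →L[ℝ] Y).comp ((1 + t)⁻¹ • ContinuousLinearMap.id ℝ X))
          ((1 + t) • y) :=
        ((show HasFDerivAt s.G (A : X →L[ℝ] Y) ((1 + t)⁻¹ • (1 + t) • y) by
          rwa [smul_smul, inv_mul_cancel₀ hne, one_smul]).comp ((1 + t) • y)
          ((hasFDerivAt_id _).const_smul (1 + t)⁻¹)).const_smul (1 + t)
      simp only [s.G_smul, smul_smul, mul_inv_cancel₀ hne, one_smul] at hs
      refine hs.congr_fderiv ?_
      ext z
      simp [smul_smul, hne]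
    show φ (fderiv ℝ s.G ((1 + t) • y) c) = φ (fderiv ℝ s.G y c)
    rw [h.fderiv, hA.fderiv]
  exact h1.unique ((hasDerivAt_const (0 : ℝ) _).congr_of_eventuallyEq h2)

/-- The identity obtained by differentiating the isometry property of the derivative. -/
lemma B_identity (hX : SmoothNorm X 1) {ξ : X} (hξ : dN y ξ = 0) (hξ0 : ξ ≠ 0)
    (hBt : ∀ h c, dN y (B h c) = 0) :
    ∃ δ : ℝ, |δ| ≤ 2 ∧ ∀ η, dN y η = 0 → dN ξ (B η ξ) = ddN y η ξ * δ := by
  have hn : ‖y‖ = 1 := hy.good.1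
  obtain ⟨β, hβ1, hβ2⟩ := exists_dual_vector'' ℝ (s.dG y ξ)
  have hβξ : β (s.dG y ξ) = ‖ξ‖ := by rw [← hy.norm_dG hξ]; exact hβ2
  have hβle : ∀ z, β z ≤ ‖z‖ := fun z =>
    (Real.le_norm_self _).trans ((β.le_of_opNorm_le hβ1 z).trans_eq (one_mul _))
  have hp : ∀ h, dN y h = 0 → β (s.dG y h) = dN ξ h := by
    intro h hh
    have hl : HasDerivAt (fun t : ℝ => ξ + t • h) h 0 := by
      simpa using ((hasDerivAt_id (0 : ℝ)).smul_const h).const_add ξ
    have hd : HasDerivAt (fun t : ℝ => ‖ξ + t • h‖ - β (s.dG y (ξ + t • h)))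
        (dN ξ h - β (s.dG y h)) 0 :=
      ((hX.hasFDerivAt le_rfl hξ0).comp_hasDerivAt_of_eq 0 hl (by simp)).sub
        ((β.comp (s.dG y)).hasFDerivAt.comp_hasDerivAt 0 hl)
    have hmin : IsLocalMin (fun t : ℝ => ‖ξ + t • h‖ - β (s.dG y (ξ + t • h))) 0 := by
      refine Eventually.of_forall fun t => ?_
      simp only [zero_smul, add_zero, hβξ, sub_self]
      rw [sub_nonneg]
      refine (hβle _).trans_eq (hy.norm_dG ?_)
      simp [hξ, hh]
    linarith [hmin.hasDerivAt_eq_zero hd]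
  refine ⟨β (s.G y) - dN ξ y, ?_, fun η hη => ?_⟩
  · have h1 : |β (s.G y)| ≤ 1 := by
      have := β.le_of_opNorm_le hβ1 (s.G y)
      rwa [Real.norm_eq_abs, s.norm_G, hn, one_mul] at this
    have h2 := abs_dN_le ξ y
    rw [hn] at h2
    linarith [abs_sub (β (s.G y)) (dN ξ y)]
  set q := ddN y η ξ with hq
  have hl : HasDerivAt (fun t : ℝ => y + t • η) η 0 := by
    simpa using ((hasDerivAt_id (0 : ℝ)).smul_const η).const_add y
  have hdn : HasDerivAt (fun t : ℝ => dN (y + t • η) ξ) q 0 := by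
    have h := (hy.good.hasFDerivAt_dN.comp_hasDerivAt_of_eq 0 hl
      (by simp)).clm_apply (hasDerivAt_const (0 : ℝ) ξ)
    simpa using h
  have hnorm : HasDerivAt (fun t : ℝ => ‖y + t • η‖) 0 0 := by
    have h := hy.good.both.self_of_nhds.1.hasFDerivAt.comp_hasDerivAt_of_eq 0 hl (by simp)
    rwa [show fderiv ℝ (fun z : X => ‖z‖) y η = 0 from hη] at h
  have hl0 : Tendsto (fun t : ℝ => y + t • η) (𝓝 0) (𝓝 y) :=
    hl.continuousAt.tendsto.trans (by simp)
  set r : ℝ → ℝ := fun t => dN (y + t • η) ξ * ‖y + t • η‖⁻¹ with hr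
  have hrd : HasDerivAt r q 0 := by
    refine (hdn.mul (hnorm.inv (by simp [hn]))).congr_deriv ?_
    simp [hn]
  have hr0 : r 0 = 0 := by simp [hr, hξ]
  set S : ℝ → X := fun t => ξ - r t • (y + t • η) with hS
  have hS0 : S 0 = ξ := by simp [hS, hr0]
  have hSd : HasDerivAt S (-(q • y)) 0 := by
    refine ((hrd.smul hl).const_sub ξ).congr_deriv ?_
    simp [hr0]
  have h2 : HasDerivAt (fun t => ‖S t‖) (dN ξ (-(q • y))) 0 :=
    (hX.hasFDerivAt le_rfl hξ0).comp_hasDerivAt_of_eq 0 hSd hS0.symm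
  have hGd : HasDerivAt (fun t : ℝ => β (s.G (y + t • η))) (β (s.dG y η)) 0 :=
    (β.hasFDerivAt.comp y hy.diffG.self_of_nhds.hasFDerivAt).comp_hasDerivAt_of_eq 0 hl (by simp)
  have hDd : HasDerivAt (fun t : ℝ => β (s.dG (y + t • η) ξ)) (β (s.dG y (B η ξ))) 0 := by
    have := (hB β ξ).comp_hasDerivAt_of_eq 0 hl (by simp)
    simpa [Function.comp_def] using this
  have h1 : HasDerivAt (fun t : ℝ => β (s.dG (y + t • η) ξ) - r t * β (s.G (y + t • η)))
      (β (s.dG y (B η ξ)) - q * β (s.G y)) 0 := by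
    refine (hDd.sub (hrd.mul hGd)).congr_deriv ?_
    simp [hr0]
  have hmin : IsLocalMin
      (fun t => ‖S t‖ - (β (s.dG (y + t • η) ξ) - r t * β (s.G (y + t • η)))) 0 := by
    filter_upwards [hl0.eventually hy.diffG, hl0.eventually hy.good.both,
      hl0.eventually (eventually_ne_nhds hy.good.ne_zero)] with t ht hbt htne
    simp only [zero_smul, add_zero, hS0, hr0, zero_mul, sub_zero, hβξ, sub_self]
    rw [sub_nonneg]
    have hz : dN (y + t • η) (S t) = 0 := by
      rw [hS, map_sub, map_smul, hbt.1.fderiv_norm_self, hr, smul_eq_mul, mul_assoc,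
        inv_mul_cancel₀ (norm_ne_zero_iff.2 htne), mul_one, sub_self]
    have hnd := s.norm_dG_of_differentiable htne ht hbt.1 hz
    refine le_trans (le_of_eq ?_) ((hβle (s.dG (y + t • η) (S t))).trans_eq hnd)
    rw [hS, map_sub, map_smul, map_sub, map_smul, smul_eq_mul,
      s.dG_self_of_differentiable ht]
  have h := hmin.hasDerivAt_eq_zero (h2.sub h1)
  rw [hp (B η ξ) (hBt η ξ), map_neg, map_smul, smul_eq_mul] at h
  linarith

/-- The second derivative of the extension is totally symmetric in the form. -/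
lemma B_total [CompleteSpace X] [CompleteSpace Y] (a b c : X) :
    ddN y a (B b c) = ddN y b (B a c) := by
  obtain ⟨A, hA, -⟩ := hy.equiv.self_of_nhds
  have hAe : s.dG y = (A : X →L[ℝ] Y) := hA.fderiv
  have hn : ‖y‖ = 1 := hy.good.1
  obtain ⟨M, hM, hlip⟩ := hy.lip
  set w := A c with hw
  have hcu : Tendsto (fun u : X => ‖u‖⁻¹ • u) (𝓝 y) (𝓝 y) := by
    have h : ContinuousAt (fun u : X => ‖u‖⁻¹ • u) y :=
      (continuous_norm.continuousAt.inv₀ (by rw [hn]; exact one_ne_zero)).smul continuousAt_id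
    simpa [ContinuousAt, hn] using h
  have hgood : ∀ᶠ u in 𝓝 y, GoodAt (‖u‖⁻¹ • u) := by
    filter_upwards [hcu.eventually hy.good.eventually, eventually_ne_nhds hy.good.ne_zero]
      with u hu hu0
    exact hu (norm_smul_inv_norm hu0)
  have hpull : ∀ᶠ u in 𝓝 y, ∀ t k, ddN (s.G u) (s.dG u t) (s.dG u k) = ddN u t k := by
    filter_upwards [hgood, hy.good.both, hy.diffG,
      s.continuous_G.continuousAt.tendsto.eventually hy.twice, eventually_ne_nhds hy.good.ne_zero]
      with u hu hub huG huY hu0 t k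
    set l := ‖u‖⁻¹ with hl
    have hl0 : 0 < l := inv_pos.2 (norm_pos_iff.2 hu0)
    have h1 : ddN (l • u) = l⁻¹ • ddN u := (hasFDerivAt_dN_scale hub.2.hasFDerivAt hl0).fderiv
    have h2 : ddN (s.G (l • u)) = l⁻¹ • ddN (s.G u) := by
      rw [s.G_smul]; exact (hasFDerivAt_dN_scale huY.hasFDerivAt hl0).fderiv
    have h3 : s.dG (l • u) = s.dG u := by
      have hs : HasFDerivAt (fun z : X => l • s.G (l⁻¹ • z))
          (l • (s.dG u).comp (l⁻¹ • ContinuousLinearMap.id ℝ X)) (l • u) :=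
        ((show HasFDerivAt s.G (s.dG u) (l⁻¹ • l • u) by
          rw [smul_smul, inv_mul_cancel₀ hl0.ne', one_smul]; exact huG.hasFDerivAt).comp (l • u)
          ((hasFDerivAt_id _).const_smul l⁻¹)).const_smul l
      simp only [s.G_smul, smul_smul, mul_inv_cancel₀ hl0.ne', one_smul] at hs
      show fderiv ℝ s.G (l • u) = fderiv ℝ s.G u
      rw [hs.fderiv]
      ext z
      simp [smul_smul, hl0.ne']
    have h := (s.centre hu).pullback.1 t k
    rw [h1, h2, h3] at h
    simpa [hl0.ne'] using h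
  set f : X → ℝ := fun u => dN u c - dN (s.G u) w with hf
  set g : X → X →L[ℝ] ℝ := fun u =>
    (ddN u).flip c - ((ddN (s.G u)).comp (s.dG u)).flip w with hg
  have hfd : ∀ᶠ u in 𝓝 y, HasFDerivAt f (g u) u := by
    filter_upwards [hy.good.both, hy.diffG,
      s.continuous_G.continuousAt.tendsto.eventually hy.twice] with u hu huG huY
    have e1 : HasFDerivAt (fun u => dN u c) ((ddN u).flip c) u := by
      simpa using hu.2.hasFDerivAt.clm_apply (hasFDerivAt_const c u)
    have e2 : HasFDerivAt (fun u => dN (s.G u) w) (((ddN (s.G u)).comp (s.dG u)).flip w) u := by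
      simpa using (huY.hasFDerivAt.comp u huG.hasFDerivAt).clm_apply (hasFDerivAt_const w u)
    exact e1.sub e2
  have hgd : ∀ t, HasFDerivAt (fun u => g u t) ((ddN y t).comp (B.flip c)) y := by
    intro t
    set φ : Y →L[ℝ] ℝ := (ddN y t).comp (A.symm : Y →L[ℝ] X) with hφ
    have hinv : ∀ᶠ u in 𝓝 y, ∃ k : X, s.dG u (c - k) = w ∧
        ‖k‖ ≤ 2 * ‖(A.symm : Y →L[ℝ] X)‖ * M * ‖c‖ * ‖u - y‖ := by
      have hsmall : ∀ᶠ u in 𝓝 y, ‖(A.symm : Y →L[ℝ] X)‖ * (M * ‖u - y‖) < 1 / 2 :=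
        ((show Continuous fun u : X => ‖(A.symm : Y →L[ℝ] X)‖ * (M * ‖u - y‖) by
          fun_prop).tendsto y).eventually_lt_const (by simp)
      filter_upwards [hy.equiv, hlip, hsmall] with u ⟨Au, hAu, _⟩ hu hs
      have hue : s.dG u = (Au : X →L[ℝ] Y) := hAu.fderiv
      refine ⟨c - Au.symm w, by rw [hue]; simp, ?_⟩
      set k := c - Au.symm w with hk
      have hd : ∀ z, ‖Au z - A z‖ ≤ M * ‖u - y‖ * ‖z‖ := fun z => by
        have := (s.dG u - s.dG y).le_opNorm z
        rw [sub_apply, hue, hAe] at this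
        refine this.trans (mul_le_mul_of_nonneg_right ?_ (norm_nonneg z))
        rw [← hue, ← hAe]; exact hu
      have hk1 : Au k = Au c - A c := by rw [hk, map_sub, Au.apply_symm_apply]
      have hk2 : ‖k‖ ≤ ‖(A.symm : Y →L[ℝ] X)‖ * ‖A k‖ := by
        conv_lhs => rw [← A.symm_apply_apply k]
        exact (A.symm : Y →L[ℝ] X).le_opNorm _
      have hk3 : ‖A k‖ ≤ M * ‖u - y‖ * ‖k‖ + M * ‖u - y‖ * ‖c‖ := by
        rw [show A k = (Au c - A c) - (Au k - A k) by rw [hk1]; abel]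
        refine (norm_sub_le _ _).trans ?_
        linarith [hd k, hd c]
      have hk4 := hk2.trans (mul_le_mul_of_nonneg_left hk3 (norm_nonneg _))
      have hk5 := mul_le_mul_of_nonneg_right hs.le (norm_nonneg k)
      linarith
    have hev : ∀ᶠ u in 𝓝 y, ∃ k : X,
        ‖k‖ ≤ 2 * ‖(A.symm : Y →L[ℝ] X)‖ * M * ‖c‖ * ‖u - y‖ ∧
        g u t = ddN u t k ∧ A k = s.dG u c - A c - (s.dG u - s.dG y) k := by
      filter_upwards [hinv, hpull] with u ⟨k, hk1, hk2⟩ hu
      refine ⟨k, hk2, ?_, ?_⟩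
      · show ddN u t c - ddN (s.G u) (s.dG u t) w = ddN u t k
        rw [← hk1, hu, map_sub, sub_sub_cancel]
      · rw [map_sub] at hk1
        rw [sub_apply, hAe, hw.symm, ← hk1]
        show A k = _
        simp
    classical
    set kf : X → X := fun u => if h : ∃ k : X,
        ‖k‖ ≤ 2 * ‖(A.symm : Y →L[ℝ] X)‖ * M * ‖c‖ * ‖u - y‖ ∧
        g u t = ddN u t k ∧ A k = s.dG u c - A c - (s.dG u - s.dG y) k
      then h.choose else 0 with hkf
    have hk : ∀ᶠ u in 𝓝 y, ‖kf u‖ ≤ 2 * ‖(A.symm : Y →L[ℝ] X)‖ * M * ‖c‖ * ‖u - y‖ ∧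
        g u t = ddN u t (kf u) ∧ A (kf u) = s.dG u c - A c - (s.dG u - s.dG y) (kf u) :=
      hev.mono fun u hu => by simp only [hkf, dif_pos hu]; exact hu.choose_spec
    set L := 2 * ‖(A.symm : Y →L[ℝ] X)‖ * M * ‖c‖ with hL
    have hL0 : 0 ≤ L := by positivity
    have t1 : HasFDerivAt (fun u => φ (s.dG u c) - φ (A c)) ((ddN y t).comp (B.flip c)) y := by
      refine ((hB φ c).sub_const (φ (A c))).congr_fderiv ?_
      ext h
      simp [hφ, hAe]
    have t2 : HasFDerivAt (fun u => (φ.comp (s.dG u) - φ.comp (s.dG y)) (kf u))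
        (0 : X →L[ℝ] ℝ) y := by
      refine hasFDerivAt_small_mul hL0 ?_ (hk.mono fun u hu => hu.1)
      have hcd : ContinuousAt (fun u => s.dG u) y := by
        rw [ContinuousAt, tendsto_iff_norm_sub_tendsto_zero]
        refine squeeze_zero' (Eventually.of_forall fun u => norm_nonneg _) hlip ?_
        simpa using ((continuous_id.sub continuous_const).norm.tendsto' y (‖y - y‖) rfl).const_mul M
      exact ((ContinuousLinearMap.compL ℝ X Y ℝ φ).continuous.continuousAt).comp hcd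
    have t3 : HasFDerivAt (fun u => ((ddN u t) - (ddN y t)) (kf u)) (0 : X →L[ℝ] ℝ) y := by
      refine hasFDerivAt_small_mul hL0 ?_ (hk.mono fun u hu => hu.1)
      exact (((hy.good.2.1.self_of_nhds.fderiv_right (m := 1) (by norm_num)).fderiv_right (m := 0)
        (by norm_num)).continuousAt).clm_apply continuousAt_const
    refine (((t1.sub t2).add t3).congr_fderiv (by simp)).congr_of_eventuallyEq
      (hk.mono fun u hu => ?_)
    have e := congrArg φ hu.2.2
    simp only [map_sub, sub_apply] at e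
    have e' : φ (A (kf u)) = ddN y t (kf u) := by simp [hφ]
    rw [e'] at e
    simp only [Pi.add_apply, Pi.sub_apply, hu.2.1, sub_apply, ContinuousLinearMap.comp_apply]
    linarith
  have h := plane_symm hfd (a := a) (b := b) (hgd a) (hgd b)
  simpa using h

end SphIso.Centre

end Vale.Agent.P084
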