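import Vale.Agent.P084.Main
import Vale.Agent.P084.Inf.Second
import Vale.Agent.P084.Inf.RigidApprox

/-!
P084 (Tingley's problem), library for arbitrary dimension: the extension is linear near a curved
point, and linearity propagates over the whole space.
-/

namespace Vale.Agent.P084

open Filter Topology Metric

variable {X Y : Type*} [NormedAddCommGroup X] [NormedSpace ℝ X] [NormedAddCommGroup Y]
  [NormedSpace ℝ Y]

/-- In dimension at least three two functionals have a common nonzero zero. -/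
lemma exists_common_zero (hdim : 3 ≤ Module.rank ℝ X) (a b : X →L[ℝ] ℝ) :
    ∃ v : X, v ≠ 0 ∧ a v = 0 ∧ b v = 0 := by
  by_contra hcon
  push Not at hcon
  have hinj : Function.Injective ((a : X →ₗ[ℝ] ℝ).prod (b : X →ₗ[ℝ] ℝ)) := by
    rw [injective_iff_map_eq_zero]
    intro v hv
    by_contra hv0
    exact hcon v hv0 (congrArg Prod.fst hv) (congrArg Prod.snd hv)
  have : FiniteDimensional ℝ X := FiniteDimensional.of_injective _ hinj
  have h1 := LinearMap.finrank_le_finrank_of_injective hinj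
  rw [Module.finrank_prod, Module.finrank_self] at h1
  rw [← Module.finrank_eq_rank] at hdim
  have h2 : 3 ≤ Module.finrank ℝ X := by exact_mod_cast hdim
  omega

namespace SphIso

variable (s : SphIso X Y)

lemma key2 (u x : X) :
    ‖‖x‖ • s.G u - ‖u‖ • s.G x‖ = ‖‖x‖ • u - ‖u‖ • x‖ := by
  rcases eq_or_ne x 0 with rfl | hx
  · simp [s.G_zero]
  have hr : 0 < ‖x‖ := norm_pos_iff.2 hx
  have h := s.key u (‖x‖⁻¹ • x) (norm_smul_inv_norm hx)
  rw [s.G_smul] at h
  have e1 : ‖x‖ • s.G u - ‖u‖ • s.G x = ‖x‖ • (s.G u - ‖u‖ • ‖x‖⁻¹ • s.G x) := by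
    rw [smul_sub, smul_smul, smul_smul, mul_comm ‖x‖ ‖u‖, mul_assoc,
      mul_inv_cancel₀ hr.ne', mul_one]
  have e2 : ‖x‖ • u - ‖u‖ • x = ‖x‖ • (u - ‖u‖ • ‖x‖⁻¹ • x) := by
    rw [smul_sub, smul_smul, smul_smul, mul_comm ‖x‖ ‖u‖, mul_assoc,
      mul_inv_cancel₀ hr.ne', mul_one]
  rw [e1, e2, norm_smul, norm_smul, h]

lemma hasFDerivAt_G_smul {u : X} {A : X →L[ℝ] Y} (h : HasFDerivAt s.G A u) {t : ℝ} (ht : t ≠ 0) :
    HasFDerivAt s.G A (t • u) := by
  have hs : HasFDerivAt (fun z : X => t • s.G (t⁻¹ • z))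
      (t • A.comp (t⁻¹ • ContinuousLinearMap.id ℝ X)) (t • u) :=
    ((show HasFDerivAt s.G A (t⁻¹ • t • u) by
      rwa [smul_smul, inv_mul_cancel₀ ht, one_smul]).comp (t • u)
      ((hasFDerivAt_id _).const_smul t⁻¹)).const_smul t
  simp only [s.G_smul, smul_smul, mul_inv_cancel₀ ht, one_smul] at hs
  refine hs.congr_fderiv ?_
  ext z
  simp [smul_smul, ht]

namespace Centre

variable {s} {y : X} (hy : s.Centre y)
include hy

/-- At a curved point the second derivative of the extension vanishes. -/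
lemma flat [CompleteSpace X] [CompleteSpace Y] (hX : SmoothNorm X 1)
    (hdim : 3 ≤ Module.rank ℝ X) (φ : Y →L[ℝ] ℝ) (c : X) :
    HasFDerivAt (fun u => φ (s.dG u c)) (0 : X →L[ℝ] ℝ) y := by
  obtain ⟨B, hB0, hB⟩ := hy.exists_B
  obtain ⟨κ, hκ, hco⟩ := hy.good.2.2
  let W : Submodule ℝ X := LinearMap.ker (dN y : X →ₗ[ℝ] ℝ)
  have hW : ∀ w : W, dN y (w : X) = 0 := fun w => LinearMap.mem_ker.1 w.2
  let QW : W →L[ℝ] W →L[ℝ] ℝ := (ddN y).bilinearComp W.subtypeL W.subtypeL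
  let BW₀ : W →ₗ[ℝ] W →ₗ[ℝ] W :=
    LinearMap.mk₂ ℝ (fun a b => (⟨B a b, LinearMap.mem_ker.2 (hB0 a b)⟩ : W))
      (fun a a' b => Subtype.ext (by simp)) (fun t a b => Subtype.ext (by simp))
      (fun a b b' => Subtype.ext (by simp)) (fun t a b => Subtype.ext (by simp))
  let BW : W →L[ℝ] W →L[ℝ] W := BW₀.mkContinuous₂ ‖B‖ fun a b => B.le_opNorm₂ (a : X) (b : X)
  have hBW : ∀ a b, (BW a b : X) = B a b := fun a b => rfl
  have hQW : ∀ a b, QW a b = ddN y (a : X) (b : X) := fun a b => rfl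
  have hdata : CubicData QW BW κ := by
    refine ⟨hκ, fun x => hco x (hW x), fun a b => hy.good.symm' _ _,
      fun a b => Subtype.ext (hy.B_symm hB _ _), fun a b c => ?_, fun ξ hξ => ?_⟩
    · simp only [hQW, hBW]
      exact hy.B_total hB _ _ _
    · obtain ⟨δ, hδ, hid⟩ := hy.B_identity hB hX (hW ξ) (by simpa using hξ) hB0
      refine ⟨(dN (ξ : X)).comp W.subtypeL, δ, hδ, fun w => abs_dN_le _ _, ?_, fun η => hid η (hW η)⟩
      exact hX.dN_self le_rfl (by simpa using hξ)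
  have hzero : ∀ a b, B a b = 0 := by
    have hd : ∀ e : W, ∃ v : W, v ≠ 0 ∧ QW e v = 0 := fun e => by
      obtain ⟨v, hv, h1, h2⟩ := exists_common_zero hdim (dN y) (ddN y (e : X))
      exact ⟨⟨v, LinearMap.mem_ker.2 h1⟩, fun h => hv (congrArg Subtype.val h), h2⟩
    have h0 : ∀ a b, dN y a = 0 → dN y b = 0 → B a b = 0 := fun a b ha hb => by
      have := congrArg Subtype.val
        (hdata.eq_zero hd ⟨a, LinearMap.mem_ker.2 ha⟩ ⟨b, LinearMap.mem_ker.2 hb⟩)
      rwa [hBW] at this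
    intro a b
    have e : ∀ z : X, dN y (z - dN y z • y) = 0 := fun z => by simp [hy.good.dN_self]
    have h := h0 _ _ (e a) (e b)
    have hyr : ∀ z, B z y = 0 := fun z => by rw [hy.B_symm hB]; exact hy.B_self hB z
    simpa [hy.B_self hB, hyr] using h
  refine (hB φ c).congr_fderiv ?_
  ext h
  simp [hzero]

end Centre

/-- The extension coincides with its derivative near a curved point. -/
lemma linear_near [CompleteSpace X] [CompleteSpace Y] (hX : SmoothNorm X 1)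
    (hdim : 3 ≤ Module.rank ℝ X) {v : X} (hv : GoodAt v) :
    ∃ A : X ≃L[ℝ] Y, ∀ᶠ u in 𝓝 v, s.G u = A u := by
  have hc := s.centre hv
  obtain ⟨A, hA, -⟩ := hc.equiv.self_of_nhds
  have hcu : Tendsto (fun u : X => ‖u‖⁻¹ • u) (𝓝 v) (𝓝 v) := by
    have h : ContinuousAt (fun u : X => ‖u‖⁻¹ • u) v :=
      (continuous_norm.continuousAt.inv₀ (by rw [hv.1]; exact one_ne_zero)).smul continuousAt_id
    simpa [ContinuousAt, hv.1] using h
  obtain ⟨ε, hε, hball⟩ := eventually_nhds_iff_ball.1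
    ((eventually_eventually_nhds.2 hc.diffG).and
      ((hcu.eventually hv.eventually).and (eventually_ne_nhds hv.ne_zero)))
  have hflat : ∀ (φ : Y →L[ℝ] ℝ) (c : X), ∀ u ∈ ball v ε,
      HasFDerivAt (fun z => φ (s.dG z c)) (0 : X →L[ℝ] ℝ) u := by
    intro φ c u hu
    obtain ⟨hd, hg, hu0⟩ := hball u hu
    have hl : 0 < ‖u‖⁻¹ := inv_pos.2 (norm_pos_iff.2 hu0)
    have hu1 := hg (norm_smul_inv_norm hu0)
    have h1 := ((s.centre hu1).flat hX hdim φ c).comp u
      ((hasFDerivAt_id u).const_smul ‖u‖⁻¹)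
    rw [ContinuousLinearMap.zero_comp] at h1
    refine h1.congr_of_eventuallyEq (hd.mono fun z hz => ?_)
    show φ (s.dG z c) = φ (fderiv ℝ s.G (‖u‖⁻¹ • z) c)
    rw [(s.hasFDerivAt_G_smul hz.hasFDerivAt hl.ne').fderiv]
  have hconst : ∀ u ∈ ball v ε, s.dG u = (A : X →L[ℝ] Y) := by
    intro u hu
    refine ContinuousLinearMap.ext fun c => (SeparatingDual.eq_iff_forall_dual_eq (R := ℝ)).2
      fun φ => ?_
    have h := isOpen_ball.is_const_of_fderiv_eq_zero (f := fun z => φ (s.dG z c))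
      (convex_ball v ε).isPreconnected
      (fun z hz => (hflat φ c z hz).differentiableAt.differentiableWithinAt)
      (fun z hz => (hflat φ c z hz).fderiv) hu (mem_ball_self hε)
    rw [h, show s.dG v = (A : X →L[ℝ] Y) from hA.fderiv]
  refine ⟨A, eventually_of_mem (ball_mem_nhds v hε) fun u hu => ?_⟩
  have hd : ∀ z ∈ ball v ε, HasFDerivAt (fun z => s.G z - A z) (0 : X →L[ℝ] Y) z := by
    intro z hz
    have h1 : HasFDerivAt s.G (A : X →L[ℝ] Y) z := by
      have := (hball z hz).1.self_of_nhds.hasFDerivAt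
      rwa [show fderiv ℝ s.G z = (A : X →L[ℝ] Y) from hconst z hz] at this
    exact (h1.sub (A : X →L[ℝ] Y).hasFDerivAt).congr_fderiv (sub_self _)
  have h := isOpen_ball.is_const_of_fderiv_eq_zero (convex_ball v ε).isPreconnected
    (fun z hz => (hd z hz).differentiableAt.differentiableWithinAt)
    (fun z hz => (hd z hz).fderiv) hu (mem_ball_self hε)
  have hAv : A v = s.G v := by
    have := hc.dG_self
    rwa [show s.dG v = (A : X →L[ℝ] Y) from hA.fderiv] at this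
  rw [hAv, sub_self] at h
  exact sub_eq_zero.1 h

/-- The set where the extension agrees with a linear map has open interior, relatively closed
away from the origin. -/
lemma mem_interior_of_closure [CompleteSpace X] (hX : SmoothNorm X 1) (hs : StrictNorm X)
    (hdim : 3 ≤ Module.rank ℝ X) (A : X ≃L[ℝ] Y) {z₀ : X} (hz₀ : z₀ ≠ 0)
    (hcl : z₀ ∈ closure (interior {x : X | s.G x = A x})) :
    z₀ ∈ interior {x : X | s.G x = A x} := by
  set T := {x : X | s.G x = A x} with hT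
  have hTc : IsClosed T := isClosed_eq s.continuous_G A.continuous
  have hz₀T : z₀ ∈ T := hTc.closure_subset_iff.2 interior_subset hcl
  have hρ0 : 0 < ‖z₀‖ := norm_pos_iff.2 hz₀
  -- a point of the interior that is not on the line through `z₀`
  obtain ⟨w, hwT, hw⟩ : ∃ w ∈ interior T, ∀ c : ℝ, w ≠ c • z₀ := by
    obtain ⟨w₀, hw₀⟩ : (interior T).Nonempty := closure_nonempty_iff.1 ⟨z₀, hcl⟩
    by_cases hc : ∀ c : ℝ, w₀ ≠ c • z₀
    · exact ⟨w₀, hw₀, hc⟩
    push Not at hc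
    obtain ⟨c, hc⟩ := hc
    obtain ⟨η, hη0, hη, -⟩ := exists_common_zero hdim (dN z₀) 0
    have hη' : ∀ c : ℝ, η ≠ c • z₀ := fun c e => by
      rw [e, map_smul, hX.dN_self le_rfl hz₀, smul_eq_mul, mul_eq_zero] at hη
      rcases hη with h | h
      · exact hη0 (by rw [e, h, zero_smul])
      · exact hρ0.ne' h
    have hev : ∀ᶠ t in 𝓝 (0 : ℝ), w₀ + t • η ∈ interior T :=
      ((show Continuous fun t : ℝ => w₀ + t • η by fun_prop).tendsto' 0 w₀ (by simp)).eventually_mem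
        (isOpen_interior.mem_nhds hw₀)
    obtain ⟨t, ht, ht0⟩ := ((hev.filter_mono nhdsWithin_le_nhds).and
      (self_mem_nhdsWithin (a := (0 : ℝ)) (s := {(0 : ℝ)}ᶜ))).exists
    refine ⟨_, ht, fun c' e => hη' ((c' - c) / t) ?_⟩
    rw [hc] at e
    rw [div_eq_inv_mul, mul_smul, sub_smul, ← e, add_sub_cancel_left, smul_smul,
      inv_mul_cancel₀ ht0, one_smul]
  have hw0 : w ≠ 0 := fun e => hw 0 (by rw [e, zero_smul])
  set α := dN w with hα
  have hr : 0 < ‖w‖ := norm_pos_iff.2 hw0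
  have hlt : α z₀ < ‖z₀‖ := by
    have h := hs.dN_lt hX le_rfl (a := ‖w‖⁻¹ • w) (b := ‖z₀‖⁻¹ • z₀) (norm_smul_inv_norm hw0)
      (norm_smul_inv_norm hz₀) (fun e => hw (‖w‖ * ‖z₀‖⁻¹) (by
        rw [mul_smul, e, smul_smul, mul_inv_cancel₀ hr.ne', one_smul]))
    rw [dN_smul_pos _ (inv_pos.2 hr), map_smul, smul_eq_mul, inv_mul_lt_iff₀ hρ0, mul_one] at h
    exact h
  -- `A` preserves the norm near the chord
  set c₀ := ‖z₀‖ • w - ‖w‖ • z₀ with hc₀
  have hc₀0 : c₀ ≠ 0 := by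
    intro e
    refine hw (‖w‖ / ‖z₀‖) ?_
    rw [div_eq_inv_mul, mul_smul, ← sub_eq_zero.1 e, smul_smul, inv_mul_cancel₀ hρ0.ne', one_smul]
  have hstrict : HasStrictFDerivAt (fun u : X => ‖z₀‖ • u - ‖u‖ • z₀)
      (‖z₀‖ • ContinuousLinearMap.id ℝ X - α.smulRight z₀) w :=
    ((hasStrictFDerivAt_id w).const_smul ‖z₀‖).sub
      (((hX w hw0).hasStrictFDerivAt' (hX.hasFDerivAt le_rfl hw0) one_ne_zero).smul_const z₀)
  have hk0 : ‖z₀‖ - α z₀ ≠ 0 := by linarith
  let L : X ≃L[ℝ] X := ContinuousLinearEquiv.equivOfInverse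
    (‖z₀‖ • ContinuousLinearMap.id ℝ X - α.smulRight z₀)
    (‖z₀‖⁻¹ • (ContinuousLinearMap.id ℝ X + ((‖z₀‖ - α z₀)⁻¹ • α).smulRight z₀))
    (fun k => by simp; match_scalars <;> (field_simp; try ring))
    (fun k => by simp; match_scalars <;> (field_simp; try ring))
  have hmap : map (fun u : X => ‖z₀‖ • u - ‖u‖ • z₀) (𝓝 w) = 𝓝 c₀ :=
    HasStrictFDerivAt.map_nhds_eq_of_equiv (f' := L) hstrict
  have hnorm : ∀ᶠ h in 𝓝 c₀, ‖A h‖ = ‖h‖ := by
    rw [← hmap, eventually_map]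
    filter_upwards [isOpen_interior.mem_nhds hwT] with u hu
    have hu' : s.G u = A u := interior_subset (s := T) hu
    have := s.key2 u z₀
    rw [hu', show s.G z₀ = A z₀ from hz₀T] at this
    rwa [map_sub, map_smul, map_smul]
  -- now let `z` be close to `z₀`
  set ζ : X → X := fun z => A.symm (s.G z) with hζ
  have hζ0 : ζ z₀ = z₀ := by
    rw [hζ]
    show A.symm (s.G z₀) = z₀
    rw [show s.G z₀ = A z₀ from hz₀T, A.symm_apply_apply]
  have hζt : Tendsto ζ (𝓝 z₀) (𝓝 z₀) :=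
    (A.symm.continuous.comp s.continuous_G).tendsto' z₀ z₀ hζ0
  have e₁ : Tendsto (fun z : X => ‖z‖ - α z) (𝓝 z₀) (𝓝 (‖z₀‖ - α z₀)) :=
    (continuous_norm.sub α.continuous).tendsto _
  have e₂ : Tendsto (fun z : X => ‖z‖ - α (ζ z)) (𝓝 z₀) (𝓝 (‖z₀‖ - α z₀)) :=
    (continuous_norm.tendsto z₀).sub ((α.continuous.tendsto z₀).comp hζt)
  have e₃ : Tendsto (fun p : X × X => ‖p.1‖ • p.2 - ‖p.2‖ • ζ p.1) (𝓝 (z₀, w)) (𝓝 c₀) := by
    have hcont : Continuous fun p : X × X => ‖p.1‖ • p.2 - ‖p.2‖ • ζ p.1 := by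
      have : Continuous ζ := A.symm.continuous.comp s.continuous_G
      fun_prop
    exact hcont.tendsto' _ _ (by simp [hc₀, hζ0])
  have e₄ : Tendsto (fun z : X => ‖z‖ • w - ‖w‖ • z) (𝓝 z₀) (𝓝 c₀) :=
    (show Continuous fun z : X => ‖z‖ • w - ‖w‖ • z by fun_prop).tendsto _
  have e₅ : Tendsto (fun z : X => ‖z‖ • w - ‖w‖ • ζ z) (𝓝 z₀) (𝓝 c₀) :=
    e₃.comp (tendsto_id.prodMk_nhds tendsto_const_nhds)
  have hpair : ∀ᶠ p in 𝓝 (z₀, w), p.2 ∈ interior T ∧
      ‖A (‖p.1‖ • p.2 - ‖p.2‖ • ζ p.1)‖ = ‖‖p.1‖ • p.2 - ‖p.2‖ • ζ p.1‖ :=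
    ((continuous_snd.tendsto (z₀, w)).eventually_mem (isOpen_interior.mem_nhds hwT)).and
      (e₃.eventually hnorm)
  rw [nhds_prod_eq] at hpair
  obtain ⟨P, hP, R, hR, hPR⟩ := eventually_prod_iff.1 hpair
  rw [mem_interior_iff_mem_nhds]
  filter_upwards [hP, e₁.eventually_const_lt (show 0 < ‖z₀‖ - α z₀ by linarith),
    e₂.eventually_const_lt (show 0 < ‖z₀‖ - α z₀ by linarith),
    e₄.eventually_ne hc₀0, e₅.eventually_ne hc₀0] with z hzP h1 h2 hcne hc'ne
  show s.G z = A z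
  set z' := ζ z with hz'
  have hGz : A z' = s.G z := A.apply_symm_apply _
  set c := ‖z‖ • w - ‖w‖ • z with hc
  set c' := ‖z‖ • w - ‖w‖ • z' with hc'
  have heq : (fun u : X => ‖‖z‖ • u - ‖u‖ • z'‖) =ᶠ[𝓝 w] fun u => ‖‖z‖ • u - ‖u‖ • z‖ := by
    filter_upwards [hR] with u hu
    obtain ⟨huT, hun⟩ := hPR hzP hu
    rw [← hun, map_sub, map_smul, map_smul]
    show ‖‖z‖ • A u - ‖u‖ • A z'‖ = _
    rw [hGz, ← show s.G u = A u from interior_subset (s := T) huT]
    exact s.key2 u z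
  have ht : ‖c'‖ = ‖c‖ := heq.self_of_nhds
  have hdd : ∀ x : X, ‖z‖ • w - ‖w‖ • x ≠ 0 →
      HasFDerivAt (fun u : X => ‖‖z‖ • u - ‖u‖ • x‖)
        ((dN (‖z‖ • w - ‖w‖ • x)).comp (‖z‖ • ContinuousLinearMap.id ℝ X - α.smulRight x)) w :=
    fun x hx => (hX.hasFDerivAt le_rfl hx).comp w
      (((hasFDerivAt_id w).const_smul ‖z‖).sub ((hX.hasFDerivAt le_rfl hw0).smul_const x))
  have hD := ((hdd z' hc'ne).congr_of_eventuallyEq heq.symm).unique (hdd z hcne)
  rw [← hc, ← hc'] at hD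
  set p := dN c with hp
  set p' := dN c' with hp'
  have hρ : 0 < ‖z‖ := by
    rcases eq_or_ne z 0 with rfl | hz
    · simp at h1
    · exact norm_pos_iff.2 hz
  set σ := p' z' - p z with hσ
  have hrel : ∀ k, ‖z‖ * (p' k - p k) = σ * α k := fun k => by
    have := DFunLike.congr_fun hD k
    simp at this
    linear_combination this
  have hαw : α w = ‖w‖ := hX.dN_self le_rfl hw0
  have hα1 : α c = ‖w‖ * (‖z‖ - α z) := by simp [hc, hαw]; ring
  have hα2 : α c' = ‖w‖ * (‖z‖ - α z') := by simp [hc', hαw]; ring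
  have hpc : p c = ‖c‖ := hX.dN_self le_rfl hcne
  have hpc' : p' c' = ‖c'‖ := hX.dN_self le_rfl hc'ne
  have hσ1 : σ * α c ≤ 0 := by
    rw [← hrel]
    exact mul_nonpos_of_nonneg_of_nonpos hρ.le (by linarith [dN_le c' c])
  have hσ2 : 0 ≤ σ * α c' := by
    rw [← hrel]
    exact mul_nonneg hρ.le (by linarith [dN_le c c'])
  rw [hα1] at hσ1
  rw [hα2] at hσ2
  have hσ0 : σ = 0 := le_antisymm (nonpos_of_mul_nonpos_left hσ1 (mul_pos hr h1))
    (nonneg_of_mul_nonneg_left hσ2 (mul_pos hr h2))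
  have hpp : p c' = ‖c‖ := by
    have := hrel c'
    rw [hσ0, zero_mul, mul_eq_zero] at this
    rcases this with h | h <;> linarith
  have hcpos : 0 < ‖c‖ := norm_pos_iff.2 hcne
  have hcc : c' = c := by
    by_contra hne
    have h := hs.dN_lt hX le_rfl (a := ‖c‖⁻¹ • c) (b := ‖c‖⁻¹ • c') (norm_smul_inv_norm hcne)
      (by rw [← ht]; exact norm_smul_inv_norm hc'ne)
      (fun e => hne (smul_right_injective X (inv_ne_zero hcpos.ne') e))
    rw [dN_smul_pos _ (inv_pos.2 hcpos), map_smul, smul_eq_mul, hpp,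
      inv_mul_cancel₀ hcpos.ne'] at h
    exact lt_irrefl _ h
  rw [hc, hc'] at hcc
  have hzz : z' = z := smul_right_injective X hr.ne' (sub_right_injective hcc)
  rw [← hGz, hzz]

/-- **Linearity.** -/
theorem exists_linear_of_point [CompleteSpace X] [CompleteSpace Y] (hX : SmoothNorm X 1)
    (hs : StrictNorm X) (hdim : 3 ≤ Module.rank ℝ X) {v : X} (hv : GoodAt v) :
    ∃ A : X ≃L[ℝ] Y, ∀ x, s.G x = A x := by
  obtain ⟨A, hA⟩ := s.linear_near hX hdim hv
  refine ⟨A, fun x => ?_⟩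
  rcases eq_or_ne x 0 with rfl | hx
  · rw [s.G_zero, map_zero]
  have hrank : 1 < Module.rank ℝ X := lt_of_lt_of_le (by norm_num) hdim
  have hpre := (isConnected_compl_singleton_of_one_lt_rank hrank (0 : X)).isPreconnected
  have hsub := hpre.subset_of_closure_inter_subset
    (isOpen_interior (s := {x : X | s.G x = A x}))
    ⟨v, hv.ne_zero, mem_interior_iff_mem_nhds.2 hA⟩
    (fun z ⟨hz, hz0⟩ => s.mem_interior_of_closure hX hs hdim A hz0 hz)
  exact (interior_subset (s := {x : X | s.G x = A x}) (hsub hx) :)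

end SphIso

/-- **Main theorem in arbitrary dimension.** -/
theorem extends_linearly_of_point [CompleteSpace X] [CompleteSpace Y]
    (hX : SmoothNorm X 1) (hs : StrictNorm X) (hdim : 3 ≤ Module.rank ℝ X) {v : X}
    (hv : GoodAt v) {f : sphere (0 : X) 1 → sphere (0 : Y) 1} (hf : Isometry f)
    (hsurj : Function.Surjective f) :
    ∃ T : X ≃ₗᵢ[ℝ] Y, ∀ x : sphere (0 : X) 1, T x = f x := by
  obtain ⟨s, hs'⟩ := exists_sphIso hs hf hsurj
  obtain ⟨A, hA⟩ := s.exists_linear_of_point hX hs hdim hv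
  refine ⟨⟨A.toLinearEquiv, fun x => ?_⟩, fun x => ?_⟩
  · show ‖A x‖ = ‖x‖
    rw [← hA, s.norm_G]
  · show A (x : X) = (f x : Y)
    rw [← hA, hs']

end Vale.Agent.P084
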