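import Vale.Agent.P084.Inf.Quad

/-!
P084 (Tingley's problem), library for arbitrary dimension: differentiability of the extension
near a point where the norm is curved.
-/

namespace Vale.Agent.P084

open Filter Topology Metric

variable {X Y : Type*} [NormedAddCommGroup X] [NormedSpace ℝ X] [NormedAddCommGroup Y]
  [NormedSpace ℝ Y]

/-- Test functions: the norm and the chord lengths to fixed unit points. -/
noncomputable def tfun : Option X → X → ℝ
  | none, u => ‖u‖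
  | some x, u => ‖u - ‖u‖ • x‖

/-- Derivatives of the test functions. -/
noncomputable def tst : Option X → X → X →L[ℝ] ℝ
  | none, u => dN u
  | some x, u => dN (u - ‖u‖ • x) - dN (u - ‖u‖ • x) x • dN u

lemma tst_some (x u h : X) :
    tst (some x) u h = dN (u - ‖u‖ • x) h - dN (u - ‖u‖ • x) x * dN u h := rfl

/-- Admissible test indices. -/
def Idx (v : X) (R : ℝ) : Option X → Prop
  | none => True
  | some x => ‖x‖ = 1 ∧ ‖x + v‖ < R

lemma norm_dN_le_one (u : X) : ‖dN u‖ ≤ 1 :=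
  ContinuousLinearMap.opNorm_le_bound _ zero_le_one fun v => by
    rw [one_mul]; exact abs_dN_le u v

/-- A quadratic expansion identifies the derivative. -/
lemma tst_eq_fderiv {i : Option X} {u : X} {σ C : ℝ}
    (h : ∀ η, ‖η‖ < σ → |tfun i (u + η) - tfun i u - tst i u η| ≤ C * ‖η‖ ^ 2) (hσ : 0 < σ)
    (hd : DifferentiableAt ℝ (tfun i) u) : fderiv ℝ (tfun i) u = tst i u := by
  refine hd.hasFDerivAt.unique ?_
  rw [hasFDerivAt_iff_isLittleO_nhds_zero]
  refine (Asymptotics.IsBigO.of_bound C ?_).trans_isLittleO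
    (Asymptotics.isLittleO_norm_pow_id (E' := X) one_lt_two)
  filter_upwards [ball_mem_nhds (0 : X) hσ] with η hη
  rw [norm_pow, norm_norm]
  exact h η (mem_ball_zero_iff.1 hη)

/-- Test functionals are bounded. -/
lemma norm_tst_le (i : Option X) (z : X) (hi : ∀ x, i = some x → ‖x‖ = 1) : ‖tst i z‖ ≤ 2 := by
  refine ContinuousLinearMap.opNorm_le_bound _ zero_le_two fun h => ?_
  rcases i with _ | x
  · exact ((dN z).le_opNorm h).trans (by have := norm_dN_le_one z; gcongr; linarith)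
  · rw [tst_some, Real.norm_eq_abs]
    have h1 := abs_dN_le (z - ‖z‖ • x) h
    have h2 := abs_dN_le (z - ‖z‖ • x) x
    rw [hi x rfl] at h2
    have h3 : |dN (z - ‖z‖ • x) x * dN z h| ≤ 1 * ‖h‖ := by
      rw [abs_mul]
      exact mul_le_mul h2 (abs_dN_le z h) (abs_nonneg _) zero_le_one
    linarith [abs_sub (dN (z - ‖z‖ • x) h) (dN (z - ‖z‖ • x) x * dN z h)]

/-- Quadratic expansions of the test functions. -/
lemma tests_quad {v : X} (hv : ‖v‖ = 1) (hq : QuadNear v) :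
    ∃ R : ℝ, 0 < R ∧ R ≤ 1 / 4 ∧ ∃ C : ℝ, 0 ≤ C ∧ ∀ i, Idx v R i → ∀ u, ‖u - v‖ < R →
      DifferentiableAt ℝ (tfun i) u ∧ ∀ h, ‖h‖ < R →
        |tfun i (u + h) - tfun i u - tst i u h| ≤ C * ‖h‖ ^ 2 ∧
        ‖tst i (u + h) - tst i u‖ ≤ C * ‖h‖ := by
  obtain ⟨r₁, hr₁, hr₁1, C₁, hC₁, h₁⟩ := hq
  obtain ⟨r₂, hr₂, hr₂1, C₂, hC₂, h₂⟩ :=
    (show QuadNear v from ⟨r₁, hr₁, hr₁1, C₁, hC₁, h₁⟩).smul two_pos
  refine ⟨min (r₁ / 16) (r₂ / 64), by positivity, by linarith [min_le_left (r₁ / 16) (r₂ / 64)],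
    20 * (C₁ + C₂), by positivity, fun i hi u hu => ?_⟩
  set R := min (r₁ / 16) (r₂ / 64) with hR
  have hRa : R ≤ r₁ / 16 := min_le_left _ _
  have hRb : R ≤ r₂ / 64 := min_le_right _ _
  have hR0 : 0 ≤ R := (norm_nonneg _).trans hu.le
  obtain ⟨hdu, hqu⟩ := h₁ u (by linarith)
  have hlipu : ∀ h, ‖h‖ < R → ‖dN (u + h) - dN u‖ ≤ 4 * C₁ * ‖h‖ := fun h hh => by
    have := norm_dN_sub_le hC₁ h₁ (w₁ := u) (w₂ := u + h) (by linarith) (by
      rw [add_sub_right_comm]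
      exact (norm_add_le _ _).trans_lt (by linarith))
    rwa [add_sub_cancel_left] at this
  rcases i with _ | x
  · refine ⟨hdu, fun h hh => ⟨?_, ?_⟩⟩
    · show |‖u + h‖ - ‖u‖ - dN u h| ≤ _
      rw [abs_of_nonneg (norm_lower_bound hdu h)]
      refine (hqu h (by linarith)).trans ?_
      have : 0 ≤ ‖h‖ ^ 2 := sq_nonneg _
      nlinarith
    · show ‖dN (u + h) - dN u‖ ≤ _
      refine (hlipu h hh).trans ?_
      have := norm_nonneg h
      nlinarith
  obtain ⟨hx, hxv⟩ := hi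
  have hun : |‖u‖ - 1| < R := by
    have := abs_norm_sub_norm_le u v
    rw [hv] at this
    linarith
  set c := u - ‖u‖ • x with hc
  have hcd : ‖c - (2 : ℝ) • v‖ < r₂ / 4 - 2 * R := by
    rw [show c - (2 : ℝ) • v = (u - v) - (x + v) - (‖u‖ - 1) • x by rw [hc]; module]
    refine (norm_sub_le _ _).trans_lt ?_
    have := norm_sub_le (u - v) (x + v)
    rw [norm_smul, hx, mul_one, Real.norm_eq_abs]
    linarith
  obtain ⟨hdc, hqc⟩ := h₂ c (by linarith)
  refine ⟨?_, fun h hh => ?_⟩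
  · show DifferentiableAt ℝ (fun z => ‖z - ‖z‖ • x‖) u
    exact hdc.comp u (differentiableAt_id.sub (hdu.smul_const x))
  set Δ := h - (‖u + h‖ - ‖u‖) • x with hΔ
  have hΔn : ‖Δ‖ ≤ 2 * ‖h‖ := by
    refine (norm_sub_le _ _).trans ?_
    rw [norm_smul, hx, mul_one, Real.norm_eq_abs]
    have := abs_norm_sub_norm_le (u + h) u
    rw [add_sub_cancel_left] at this
    linarith
  have hnext : u + h - ‖u + h‖ • x = c + Δ := by rw [hΔ, hc]; module
  have hp1 : |dN c x| ≤ 1 := hx ▸ abs_dN_le c x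
  refine ⟨?_, ?_⟩
  · show |‖u + h - ‖u + h‖ • x‖ - ‖u - ‖u‖ • x‖ - tst (some x) u h| ≤ _
    rw [hnext, ← hc, tst_some, ← hc]
    have e1 : dN c Δ = dN c h - (‖u + h‖ - ‖u‖) * dN c x := by
      rw [hΔ, map_sub, map_smul, smul_eq_mul]
    have l1 := norm_lower_bound hdc Δ
    have u1 := hqc Δ (by linarith)
    have u1' : C₂ * ‖Δ‖ ^ 2 ≤ C₂ * (4 * ‖h‖ ^ 2) := by
      refine mul_le_mul_of_nonneg_left ?_ hC₂
      nlinarith [norm_nonneg Δ]
    have l2 := norm_lower_bound hdu h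
    have u2 := hqu h (by linarith)
    have key : |dN c x * (dN u h - (‖u + h‖ - ‖u‖))| ≤ C₁ * ‖h‖ ^ 2 := by
      rw [abs_mul]
      calc |dN c x| * |dN u h - (‖u + h‖ - ‖u‖)| ≤ 1 * (C₁ * ‖h‖ ^ 2) := by
            refine mul_le_mul hp1 ?_ (abs_nonneg _) zero_le_one
            rw [abs_le]; constructor <;> linarith
        _ = _ := one_mul _
    have key' := abs_le.1 key
    have h0 : 0 ≤ C₁ * ‖h‖ ^ 2 := by positivity
    have h0' : 0 ≤ C₂ * ‖h‖ ^ 2 := by positivity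
    rw [abs_le]
    constructor <;> linarith [key'.1, key'.2]
  · refine ContinuousLinearMap.opNorm_le_bound _ (by positivity) fun k => ?_
    rw [sub_apply, tst_some, tst_some, hnext, ← hc]
    have hl := norm_dN_sub_le hC₂ h₂ (w₁ := c) (w₂ := c + Δ) (by linarith) (by
      rw [add_sub_right_comm]
      exact (norm_add_le _ _).trans_lt (by linarith))
    rw [add_sub_cancel_left] at hl
    have hl' : ‖dN (c + Δ) - dN c‖ ≤ 8 * C₂ * ‖h‖ :=
      hl.trans (by have := mul_le_mul_of_nonneg_left hΔn hC₂; linarith)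
    have a1 : |dN (c + Δ) k - dN c k| ≤ 8 * C₂ * ‖h‖ * ‖k‖ := by
      rw [← sub_apply]
      exact ((dN (c + Δ) - dN c).le_opNorm k).trans (by gcongr)
    have a2 : |dN (c + Δ) x - dN c x| ≤ 8 * C₂ * ‖h‖ := by
      rw [← sub_apply]
      refine ((dN (c + Δ) - dN c).le_opNorm x).trans ?_
      rw [hx, mul_one]; exact hl'
    have a3 : |dN (u + h) k - dN u k| ≤ 4 * C₁ * ‖h‖ * ‖k‖ := by
      rw [← sub_apply]
      exact ((dN (u + h) - dN u).le_opNorm k).trans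
        (mul_le_mul_of_nonneg_right (hlipu h hh) (norm_nonneg k))
    have a4 : |(dN (c + Δ) x - dN c x) * dN (u + h) k| ≤ 8 * C₂ * ‖h‖ * ‖k‖ := by
      rw [abs_mul]
      exact mul_le_mul a2 (abs_dN_le _ _) (abs_nonneg _) (by positivity)
    have a5 : |dN c x * (dN (u + h) k - dN u k)| ≤ 4 * C₁ * ‖h‖ * ‖k‖ := by
      rw [abs_mul]
      exact (mul_le_mul hp1 a3 (abs_nonneg _) zero_le_one).trans_eq (one_mul _)
    have h0 : 0 ≤ C₁ * ‖h‖ * ‖k‖ := by positivity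
    have h0' : 0 ≤ C₂ * ‖h‖ * ‖k‖ := by positivity
    rw [Real.norm_eq_abs, abs_le]
    have := abs_le.1 a1; have := abs_le.1 a4; have := abs_le.1 a5
    constructor <;> linarith

/-- A curved point: the norm is `C²` nearby with coercive second derivative on the tangent
space. -/
def GoodAt (v : X) : Prop :=
  ‖v‖ = 1 ∧ (∀ᶠ x in 𝓝 v, ContDiffAt ℝ 2 (fun z : X => ‖z‖) x) ∧
    ∃ κ : ℝ, 0 < κ ∧ ∀ h, dN v h = 0 → κ * ‖h‖ ^ 2 ≤ ddN v h h

lemma GoodAt.ne_zero {v : X} (h : GoodAt v) : v ≠ 0 := fun e => by simpa [e] using h.1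

lemma GoodAt.dN_self {v : X} (h : GoodAt v) : dN v v = 1 := by
  rw [(h.2.1.self_of_nhds.differentiableAt (by norm_num)).fderiv_norm_self, h.1]

/-- The second derivative at twice a point. -/
lemma dN_double {v : X} (hC2 : ∀ᶠ x in 𝓝 v, ContDiffAt ℝ 2 (fun z : X => ‖z‖) x) :
    HasFDerivAt (fun z : X => dN z) (ddN ((2 : ℝ) • v)) ((2 : ℝ) • v) ∧
      ∀ a b, ddN ((2 : ℝ) • v) a b = (1 / 2) * ddN v a b := by
  have hd2 : HasFDerivAt (fun z : X => dN z) (ddN ((2 : ℝ) • v)) ((2 : ℝ) • v) := by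
    have h1 : HasFDerivAt (fun z : X => dN z) (ddN v) v :=
      ((hC2.self_of_nhds.fderiv_right (m := 1) (by norm_num)).differentiableAt
        (by norm_num)).hasFDerivAt
    have h2 : HasFDerivAt (fun z : X => dN z)
        ((ddN v).comp ((1 / 2 : ℝ) • ContinuousLinearMap.id ℝ X)) ((2 : ℝ) • v) := by
      have hs : HasFDerivAt (fun z : X => (1 / 2 : ℝ) • z)
          ((1 / 2 : ℝ) • ContinuousLinearMap.id ℝ X) ((2 : ℝ) • v) :=
        (hasFDerivAt_id _).const_smul (1 / 2 : ℝ)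
      have e : v = (1 / 2 : ℝ) • (2 : ℝ) • v := by rw [smul_smul]; norm_num
      have h1' : HasFDerivAt (fun z : X => dN z) (ddN v) ((1 / 2 : ℝ) • (2 : ℝ) • v) := by
        rw [← e]; exact h1
      have := h1'.comp ((2 : ℝ) • v) hs
      simpa only [Function.comp_def, dN_smul_pos _ (by norm_num : (0 : ℝ) < 1 / 2)] using this
    exact h2.differentiableAt.hasFDerivAt
  refine ⟨hd2, fun a b => ?_⟩
  · have h1 : HasFDerivAt (fun z : X => dN z) (ddN v) v :=
      ((hC2.self_of_nhds.fderiv_right (m := 1) (by norm_num)).differentiableAt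
        (by norm_num)).hasFDerivAt
    have h3 : HasFDerivAt (fun z : X => dN ((2 : ℝ) • z))
        ((ddN ((2 : ℝ) • v)).comp ((2 : ℝ) • ContinuousLinearMap.id ℝ X)) v :=
      hd2.comp v ((hasFDerivAt_id v).const_smul (2 : ℝ))
    simp only [dN_smul_pos _ two_pos] at h3
    have := DFunLike.congr_fun (DFunLike.congr_fun (h3.unique h1) a) b
    simp at this
    linarith

/-- The test in the tilted direction is large. -/
lemma tilt_test {v x P k e : X} {κ ε c : ℝ} (hv : ‖v‖ = 1) (hvv : dN v v = 1) (hκ : 0 < κ)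
    (hεp : 0 < ε) (hP : P = k - dN v k • v) (hPt : dN v P = 0) (hP0 : 0 < ‖P‖)
    (hPn : (1 - c) * ‖k‖ ≤ ‖P‖) (hbig : |dN v k| < c * ‖k‖) (hc4 : c ≤ 1 / 4)
    (hcε : c ≤ ε * κ / 64) (hηn : ‖‖P‖⁻¹ • P‖ = 1)
    (hco : κ * ‖‖P‖⁻¹ • P‖ ^ 2 ≤ ddN v (‖P‖⁻¹ • P) (‖P‖⁻¹ • P))
    (hηt : dN v (‖P‖⁻¹ • P) = 0) (hxn : ‖x‖ = 1)
    (hQη : ddN ((2 : ℝ) • v) (‖P‖⁻¹ • P) (‖P‖⁻¹ • P) =
      (1 / 2) * ddN v (‖P‖⁻¹ • P) (‖P‖⁻¹ • P))
    (h2 : |ddN ((2 : ℝ) • v) e (‖P‖⁻¹ • P)| ≤ ε * κ / 8)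
    (hwn : ‖e - ε • ‖P‖⁻¹ • P‖ ≤ 2 * ε)
    (happ : ‖dN (v - ‖v‖ • x) - dN ((2 : ℝ) • v) -
      ddN ((2 : ℝ) • v) (e - ε • ‖P‖⁻¹ • P)‖ ≤ κ / 64 * ‖e - ε • ‖P‖⁻¹ • P‖) :
    c * ‖k‖ ≤ |tst (some x) v k| := by
  have hk0 : 0 < ‖k‖ := by
    rcases eq_or_ne k 0 with rfl | h
    · simp at hbig
    · exact norm_pos_iff.2 h
  generalize hη : ‖P‖⁻¹ • P = η at *
  replace hη := hη.symm
  set q := dN (v - ‖v‖ • x) with hqdef
  have hqη : q η ≤ -(ε * κ / 4) := by
    have h1 := ((q - dN ((2 : ℝ) • v) - ddN ((2 : ℝ) • v) (e - ε • η)).le_opNorm η).trans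
      (mul_le_mul_of_nonneg_right happ (norm_nonneg η))
    rw [hηn, mul_one, sub_apply, sub_apply, dN_smul_pos _ two_pos, hηt, sub_zero, map_sub,
      sub_apply, map_smul (ddN ((2 : ℝ) • v)) ε η, smul_apply, smul_eq_mul, hQη, Real.norm_eq_abs] at h1
    have h5 := hco
    rw [hηn, one_pow, mul_one] at h5
    have h6 := (abs_le.1 (h1.trans (mul_le_mul_of_nonneg_left hwn (by positivity)))).2
    have h7 := (abs_le.1 h2).2
    have h8 : ε * κ ≤ ε * ddN v η η := mul_le_mul_of_nonneg_left h5 hεp.le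
    have h6' : q η - (ddN ((2 : ℝ) • v) e η - ε * (1 / 2 * ddN v η η)) ≤ κ / 64 * (2 * ε) := h6
    have h7' : ddN ((2 : ℝ) • v) e η ≤ ε * κ / 8 := h7
    linear_combination h6' + h7' + (1 / 2) * h8 + (3 / 32) * (mul_pos hεp hκ).le
  have htP : ε * κ / 4 * ‖P‖ ≤ -tst (some x) v P := by
    rw [tst_some, ← hqdef, hPt, mul_zero, sub_zero]
    have e1 : q P = ‖P‖ * q η := by
      rw [hη, map_smul, smul_eq_mul, ← mul_assoc, mul_inv_cancel₀ hP0.ne', one_mul]
    rw [e1]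
    have := mul_le_mul_of_nonneg_left hqη hP0.le
    linarith
  have htv : |tst (some x) v v| ≤ 2 := by
    rw [tst_some, ← hqdef, hvv, mul_one]
    have h1 := abs_dN_le (v - ‖v‖ • x) v
    have h2 := abs_dN_le (v - ‖v‖ • x) x
    rw [← hqdef] at h1 h2
    rw [hv] at h1
    rw [hxn] at h2
    linarith [abs_sub (q v) (q x)]
  have hksplit : tst (some x) v k = tst (some x) v P + dN v k * tst (some x) v v := by
    rw [← smul_eq_mul, ← map_smul, ← map_add, hP, sub_add_cancel]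
  have hab : |dN v k * tst (some x) v v| ≤ c * ‖k‖ * 2 := by
    rw [abs_mul]
    exact mul_le_mul hbig.le htv (abs_nonneg _) ((abs_nonneg _).trans hbig.le)
  rw [hksplit]
  refine le_trans ?_ (neg_le_abs _)
  have hεκ : 0 < ε * κ := mul_pos hεp hκ
  have h9 := mul_le_mul_of_nonneg_left hPn (show 0 ≤ ε * κ / 4 by positivity)
  have h10 := mul_le_mul_of_nonneg_right hc4 (show 0 ≤ ε * κ / 4 * ‖k‖ by positivity)
  have h11 := mul_le_mul_of_nonneg_right hcε hk0.le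
  have h12 : dN v k * tst (some x) v v ≤ c * ‖k‖ * 2 := (abs_le.1 hab).2
  linear_combination htP + h12 + 3 * h11 + h9 + h10 + (9 / 64) * (mul_pos hεκ hk0).le

/-- The test functionals norm the space near a curved point. -/
lemma tests_norming {v : X} (hg : GoodAt v) {R : ℝ} (hR : 0 < R) :
    ∃ σ : ℝ, 0 < σ ∧ ∃ c : ℝ, 0 < c ∧ ∀ u, ‖u - v‖ < σ → ∀ k,
      ∃ i, Idx v R i ∧ c * ‖k‖ ≤ |tst i u k| := by
  obtain ⟨hv, hC2, κ, hκ, hco⟩ := id hg
  have hvv := hg.dN_self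
  have hq := quadNear_of_contDiffAt hC2
  obtain ⟨R₀, hR₀, -, C, hC, htq⟩ := tests_quad hv hq
  obtain ⟨r₁, hr₁, -, C₁, hC₁, h₁⟩ := hq
  obtain ⟨hd2, hQ2⟩ := dN_double hC2
  set L := ‖ddN ((2 : ℝ) • v)‖ with hL
  obtain ⟨δ, hδ, hlo⟩ := Metric.eventually_nhds_iff.1
    ((hasFDerivAt_iff_isLittleO_nhds_zero.1 hd2).def (show 0 < κ / 64 by positivity))
  set ε := min (min (R / 4) (R₀ / 4)) (min (min (δ / 4) (r₁ / 2))
    (min (1 / (4 * (C₁ + 1))) (κ / (8 * (L * C₁ + 1))))) with hε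
  have hεR : ε ≤ R / 4 := (min_le_left _ _).trans (min_le_left _ _)
  have hεR0 : ε ≤ R₀ / 4 := (min_le_left _ _).trans (min_le_right _ _)
  have hεδ : ε ≤ δ / 4 := (min_le_right _ _).trans ((min_le_left _ _).trans (min_le_left _ _))
  have hεr : ε ≤ r₁ / 2 := (min_le_right _ _).trans ((min_le_left _ _).trans (min_le_right _ _))
  have hε4' : ε ≤ 1 / (4 * (C₁ + 1)) := (min_le_right _ _).trans ((min_le_right _ _).trans (min_le_left _ _))
  have hεk : ε ≤ κ / (8 * (L * C₁ + 1)) :=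
    (min_le_right _ _).trans ((min_le_right _ _).trans (min_le_right _ _))
  have hL0 : 0 ≤ L := ContinuousLinearMap.opNorm_nonneg _
  have hεp : 0 < ε := by positivity
  set c := min (ε * κ / 64) (1 / 4) with hc
  have hc0 : 0 < c := lt_min (by positivity) (by norm_num)
  have hc4 : c ≤ 1 / 4 := min_le_right _ _
  have hcε : c ≤ ε * κ / 64 := min_le_left _ _
  refine ⟨min R₀ (c / (2 * (C + 1))), by positivity, c / 2, by positivity, fun u hu k => ?_⟩
  have hstep : ∀ i, Idx v R₀ i → c * ‖k‖ ≤ |tst i v k| → c / 2 * ‖k‖ ≤ |tst i u k| := by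
    intro i hi hk
    have h2 := ((htq i hi v (by simpa using hR₀)).2 (u - v) (hu.trans_le (min_le_left _ _))).2
    rw [add_sub_cancel] at h2
    have h3 := ((tst i u - tst i v).le_opNorm k).trans
      (mul_le_mul_of_nonneg_right h2 (norm_nonneg k))
    rw [sub_apply, Real.norm_eq_abs] at h3
    have h4 : C * ‖u - v‖ ≤ c / 2 := by
      have := hu.le.trans (min_le_right _ _)
      rw [le_div_iff₀ (by positivity)] at this
      nlinarith [norm_nonneg (u - v)]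
    have h5 := abs_sub_abs_le_abs_sub (tst i v k) (tst i u k)
    rw [abs_sub_comm] at h5
    have h6 := mul_le_mul_of_nonneg_right h4 (norm_nonneg k)
    linarith
  by_cases hbig : c * ‖k‖ ≤ |dN v k|
  · exact ⟨none, trivial, hstep none trivial hbig⟩
  push Not at hbig
  set P := k - dN v k • v with hP
  have hPt : dN v P = 0 := by simp [hP, hvv]
  have hPn : (1 - c) * ‖k‖ ≤ ‖P‖ := by
    have := norm_sub_norm_le k (dN v k • v)
    rw [norm_smul, hv, mul_one, Real.norm_eq_abs] at this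
    rw [hP]; linarith
  have hk0 : 0 < ‖k‖ := by
    rcases eq_or_ne k 0 with rfl | h
    · simp at hbig
    · exact norm_pos_iff.2 h
  have hP0 : 0 < ‖P‖ := lt_of_lt_of_le (mul_pos (by linarith) hk0) hPn
  set η := ‖P‖⁻¹ • P with hη
  have hηn : ‖η‖ = 1 := norm_smul_inv_norm (norm_pos_iff.1 hP0)
  have hηt : dN v η = 0 := by rw [hη, map_smul, hPt, smul_zero]
  set n := ‖v + (-ε) • η‖ with hn
  have hn1 : 1 ≤ n ∧ n ≤ 1 + C₁ * ε ^ 2 := by
    obtain ⟨hd, hqv⟩ := h₁ v (by simpa using hr₁)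
    have l := norm_lower_bound hd ((-ε) • η)
    have hsn : ‖(-ε) • η‖ = ε := by rw [norm_smul, hηn, mul_one, norm_neg, Real.norm_of_nonneg hεp.le]
    have u := hqv ((-ε) • η) (by rw [hsn]; linarith)
    rw [map_smul, hηt, smul_zero, sub_zero, hv, ← hn] at l u
    rw [hsn] at u
    constructor <;> linarith
  have hnp : 0 < n := by linarith
  set x := -(n⁻¹ • (v + (-ε) • η)) with hx
  have hxn : ‖x‖ = 1 := by rw [hx, norm_neg, norm_smul, ← hn, norm_inv, Real.norm_of_nonneg hnp.le,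
    inv_mul_cancel₀ hnp.ne']
  have hse : ‖n⁻¹ • (v + (-ε) • η) - (v + (-ε) • η)‖ ≤ C₁ * ε ^ 2 := by
    rw [show n⁻¹ • (v + (-ε) • η) - (v + (-ε) • η) = (n⁻¹ - 1) • (v + (-ε) • η) by module,
      norm_smul, ← hn, Real.norm_eq_abs, abs_sub_comm, abs_of_nonneg (by
        rw [sub_nonneg]; exact inv_le_one_of_one_le₀ hn1.1), sub_mul, one_mul,
      inv_mul_cancel₀ hnp.ne']
    linarith [hn1.2]
  have hCe : C₁ * ε ^ 2 ≤ ε := by
    rw [le_div_iff₀ (by positivity)] at hε4'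
    nlinarith
  set e := n⁻¹ • (v + (-ε) • η) - (v + (-ε) • η) with he
  have hxv : x + v = ε • η - e := by rw [hx, he]; module
  have hεη : ‖ε • η‖ = ε := by rw [norm_smul, hηn, mul_one, Real.norm_of_nonneg hεp.le]
  have hIdx : ∀ T : ℝ, ε ≤ T / 4 → Idx v T (some x) := fun T hT => by
    refine ⟨hxn, ?_⟩
    rw [hxv]
    exact (norm_sub_le _ _).trans_lt (by linarith)
  refine ⟨some x, hIdx R hεR, hstep (some x) (hIdx R₀ hεR0) ?_⟩
  have hchord : v - ‖v‖ • x = (2 : ℝ) • v + (e - ε • η) := by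
    rw [hv, one_smul, hx, he]; module
  have hwn : ‖e - ε • η‖ ≤ 2 * ε := (norm_sub_le _ _).trans (by linarith)
  have happ := hlo (y := e - ε • η) (by rw [dist_zero_right]; linarith)
  rw [← hchord] at happ
  refine tilt_test hv hvv hκ hεp hP hPt hP0 hPn hbig hc4 hcε hηn (hco η hηt) hηt hxn (hQ2 η η) ?_
    hwn happ
  have h3 := (ddN ((2 : ℝ) • v)).le_opNorm₂ e η
  rw [Real.norm_eq_abs, hηn, mul_one, ← hL] at h3
  have h4 := mul_le_mul_of_nonneg_left hse hL0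
  rw [le_div_iff₀ (by positivity)] at hεk
  nlinarith

/-- All that is needed of the test functions around `v` and its image. -/
def Tests (s : SphIso X Y) (v : X) (R σ C c : ℝ) : Prop :=
  (∀ i, Idx v R i → ∀ u, ‖u - v‖ < σ → DifferentiableAt ℝ (tfun i) u ∧ ∀ h, ‖h‖ < σ →
    |tfun i (u + h) - tfun i u - tst i u h| ≤ C * ‖h‖ ^ 2 ∧
    ‖tst i (u + h) - tst i u‖ ≤ C * ‖h‖) ∧
  (∀ i, Idx v R i → ∀ w, ‖w - s.G v‖ < σ → DifferentiableAt ℝ (tfun (i.map s.G)) w ∧
    ∀ h, ‖h‖ < σ →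
    |tfun (i.map s.G) (w + h) - tfun (i.map s.G) w - tst (i.map s.G) w h| ≤ C * ‖h‖ ^ 2 ∧
    ‖tst (i.map s.G) (w + h) - tst (i.map s.G) w‖ ≤ C * ‖h‖) ∧
  (∀ u, ‖u - v‖ < σ → ∀ k, ∃ i, Idx v R i ∧ c * ‖k‖ ≤ |tst i u k|) ∧
  (∀ w, ‖w - s.G v‖ < σ → ∀ k, ∃ i, Idx v R i ∧ c * ‖k‖ ≤ |tst (i.map s.G) w k|)

namespace SphIso

variable (s : SphIso X Y)

lemma tfun_map {v : X} {R : ℝ} {i : Option X} (hi : Idx v R i) (u : X) :
    tfun (i.map s.G) (s.G u) = tfun i u := by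
  rcases i with _ | x
  · exact s.norm_G u
  · show ‖s.G u - ‖s.G u‖ • s.G x‖ = _
    rw [s.norm_G]
    exact s.key u x hi.1

/-- The test functions around a curved point and its image. -/
lemma exists_tests {v : X} (hg : GoodAt v) :
    ∃ R, 0 < R ∧ ∃ σ, 0 < σ ∧ ∃ C, 0 ≤ C ∧ ∃ c, 0 < c ∧ Tests s v R σ C c := by
  have hv := hg.1
  have hq := quadNear_of_contDiffAt hg.2.1
  obtain ⟨R₁, hR₁, -, C₁, hC₁, h₁⟩ := tests_quad hv hq
  obtain ⟨R₂, hR₂, -, C₂, hC₂, h₂⟩ :=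
    tests_quad (v := s.G v) (by rw [s.norm_G, hv]) (s.quadNear_G hv hq)
  set R := min R₁ (R₂ / 4) with hR
  have hR0 : 0 < R := by positivity
  obtain ⟨σ₃, hσ₃, c, hc, hn⟩ := tests_norming hg hR0
  have hmap : ∀ i, Idx v R i → Idx (s.G v) R₂ (i.map s.G) := by
    rintro (_ | x) hi
    · trivial
    · refine ⟨by rw [s.norm_G]; exact hi.1, ?_⟩
      have h1 := s.norm_G_sub_le x (-v)
      rw [s.G_neg, sub_neg_eq_add, sub_neg_eq_add] at h1
      linarith [hi.2, min_le_right R₁ (R₂ / 4)]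
  have hXi : ∀ i, Idx v R i → Idx v R₁ i := by
    rintro (_ | x) hi
    · trivial
    · exact ⟨hi.1, hi.2.trans_le (min_le_left _ _)⟩
  set σ := min (min R₁ R₂) σ₃ / 6 with hσ
  have hσ1 : σ ≤ R₁ / 6 := by
    have := (min_le_left (min R₁ R₂) σ₃).trans (min_le_left R₁ R₂); linarith
  have hσ2 : σ ≤ R₂ / 6 := by
    have := (min_le_left (min R₁ R₂) σ₃).trans (min_le_right R₁ R₂); linarith
  have hσ3 : σ ≤ σ₃ / 6 := by
    have := min_le_right (min R₁ R₂) σ₃; linarith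
  have hσ0 : 0 < σ := by positivity
  refine ⟨R, hR0, σ, hσ0, max C₁ C₂, le_max_of_le_left hC₁, c / 4, by positivity,
    fun i hi u hu => ?_, fun i hi w hw => ?_,
    fun u hu k => ?_, fun w hw k => ?_⟩
  · obtain ⟨hd, hh⟩ := h₁ i (hXi i hi) u (by linarith)
    refine ⟨hd, fun h hlt => ?_⟩
    obtain ⟨a, b⟩ := hh h (by linarith)
    exact ⟨a.trans (by gcongr; exact le_max_left _ _), b.trans (by gcongr; exact le_max_left _ _)⟩
  · obtain ⟨hd, hh⟩ := h₂ _ (hmap i hi) w (by linarith)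
    refine ⟨hd, fun h hlt => ?_⟩
    obtain ⟨a, b⟩ := hh h (by linarith)
    exact ⟨a.trans (by gcongr; exact le_max_right _ _), b.trans (by gcongr; exact le_max_right _ _)⟩
  · obtain ⟨i, hi, hk⟩ := hn u (by linarith) k
    exact ⟨i, hi, le_trans (by have := norm_nonneg k; nlinarith) hk⟩
  · set u := s.H w with hu
    have hGu : s.G u = w := s.G_H w
    have hun : ‖u - v‖ < σ₃ ∧ ‖u - v‖ < R₁ / 2 := by
      have := s.symm.norm_G_sub_le w (s.G v)
      rw [symm_G, s.H_G, ← hu] at this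
      constructor <;> linarith
    rcases eq_or_ne k 0 with rfl | hk0
    · exact ⟨none, trivial, by simp⟩
    have hkp : 0 < ‖k‖ := norm_pos_iff.2 hk0
    set K := max C₁ C₂ with hK
    have hK0 : 0 ≤ K := le_max_of_le_left hC₁
    set t := min (min (R₁ / (8 * ‖k‖)) (R₂ / (2 * ‖k‖))) (c / (24 * (10 * K + 1) * ‖k‖)) with ht
    have ht0 : 0 < t := by positivity
    set d := s.H (w + t • k) - u with hd
    have htk : ‖t • k‖ = t * ‖k‖ := by rw [norm_smul, Real.norm_of_nonneg ht0.le]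
    have ht1 : t * (8 * ‖k‖) ≤ R₁ :=
      (le_div_iff₀ (by positivity)).1 ((min_le_left _ _).trans (min_le_left _ _))
    have ht2 : t * (2 * ‖k‖) ≤ R₂ :=
      (le_div_iff₀ (by positivity)).1 ((min_le_left _ _).trans (min_le_right _ _))
    have ht3 : t * (24 * (10 * K + 1) * ‖k‖) ≤ c :=
      (le_div_iff₀ (by positivity)).1 (min_le_right _ _)
    have hdu : ‖d‖ ≤ 3 * (t * ‖k‖) := by
      have := s.symm.norm_G_sub_le (w + t • k) w
      rwa [add_sub_cancel_left, htk] at this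
    have hdl : t * ‖k‖ / 3 ≤ ‖d‖ := by
      have := s.norm_G_sub_le (s.H (w + t • k)) u
      rw [s.G_H, hGu, add_sub_cancel_left, htk, ← hd] at this
      linarith
    obtain ⟨i, hi, hik⟩ := hn u hun.1 d
    obtain ⟨a, -⟩ := (h₁ i (hXi i hi) u (by linarith)).2 d (by linarith)
    obtain ⟨b, -⟩ := (h₂ _ (hmap i hi) w (by linarith)).2 (t • k) (by rw [htk]; linarith)
    refine ⟨i, hi, ?_⟩
    have e : tfun (i.map s.G) (w + t • k) - tfun (i.map s.G) w = tfun i (u + d) - tfun i u := by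
      rw [← s.tfun_map hi u, ← s.tfun_map hi (u + d), hGu, hd, add_sub_cancel, s.G_H]
    rw [e, map_smul, smul_eq_mul, htk] at b
    have hC1 : C₁ * ‖d‖ ^ 2 ≤ K * (3 * (t * ‖k‖)) ^ 2 := by
      gcongr
      exact le_max_left _ _
    have hC2 : C₂ * (t * ‖k‖) ^ 2 ≤ K * (t * ‖k‖) ^ 2 := by
      gcongr
      exact le_max_right _ _
    have hmain : c * (t * ‖k‖ / 3) - 10 * K * (t * ‖k‖) ^ 2 ≤ t * |tst (i.map s.G) w k| := by
      rw [← abs_of_pos ht0, ← abs_mul, abs_of_pos ht0]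
      have h1 := mul_le_mul_of_nonneg_left hdl hc.le
      have h2 := abs_sub_abs_le_abs_sub (tst i u d) (t * tst (i.map s.G) w k)
      have h3 := abs_sub_le (tst i u d) (tfun i (u + d) - tfun i u) (t * tst (i.map s.G) w k)
      rw [abs_sub_comm (tst i u d) (tfun i (u + d) - tfun i u)] at h3
      linarith
    refine le_of_mul_le_mul_left ?_ ht0
    refine le_trans ?_ hmain
    nlinarith [mul_le_mul_of_nonneg_left ht3 (mul_nonneg ht0.le (norm_nonneg k))]

/-- Differentiability by test functionals. -/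
lemma hasFDerivAt_of_tests [CompleteSpace Y] {ι : Type*} (P : ι → X →L[ℝ] ℝ)
    (P' : ι → Y →L[ℝ] ℝ) {f : X → Y} {u : X} {σ c C M : ℝ} (hσ : 0 < σ) (hc : 0 < c)
    (hC : 0 ≤ C) (hP : ∀ i, ‖P i‖ ≤ M) (hn : ∀ k : Y, ∃ i, c * ‖k‖ ≤ |P' i k|)
    (hq : ∀ i h, ‖h‖ < σ → |P' i (f (u + h) - f u) - P i h| ≤ C * ‖h‖ ^ 2) :
    ∃ D : X →L[ℝ] Y, HasFDerivAt f D u ∧ ∀ i h, P' i (D h) = P i h := by
  have hinj : ∀ k, (∀ i, P' i k = 0) → k = 0 := fun k hk => by
    obtain ⟨i, hi⟩ := hn k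
    rw [hk, abs_zero] at hi
    exact norm_le_zero_iff.1 (nonpos_of_mul_nonpos_right (by linarith) hc |>.trans le_rfl)
  have hex : ∀ h : X, ∃ z : Y, ∀ i, P' i z = P i h := by
    intro h
    set τ : ℕ → ℝ := fun n => σ / (‖h‖ + 1) / ((n : ℝ) + 1) with hτ
    have hτp : ∀ n, 0 < τ n := fun n => by positivity
    have hτh : ∀ n, ‖τ n • h‖ < σ := fun n => by
      rw [norm_smul, Real.norm_of_nonneg (hτp n).le]
      show σ / (‖h‖ + 1) / ((n : ℝ) + 1) * ‖h‖ < σ
      rw [div_div, div_mul_eq_mul_div, div_lt_iff₀ (by positivity)]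
      have : ‖h‖ < (‖h‖ + 1) * ((n : ℝ) + 1) := by nlinarith [norm_nonneg h, n.cast_nonneg (α := ℝ)]
      nlinarith
    set q : ℕ → Y := fun n => (τ n)⁻¹ • (f (u + τ n • h) - f u) with hqq
    have hqn : ∀ n i, |P' i (q n) - P i h| ≤ C * ‖h‖ ^ 2 * τ n := by
      intro n i
      have h1 := hq i _ (hτh n)
      rw [map_smul, smul_eq_mul, norm_smul, Real.norm_of_nonneg (hτp n).le] at h1
      show |P' i ((τ n)⁻¹ • (f (u + τ n • h) - f u)) - P i h| ≤ _
      rw [map_smul, smul_eq_mul]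
      refine le_of_mul_le_mul_left ?_ (hτp n)
      rw [← abs_of_pos (hτp n), ← abs_mul, abs_of_pos (hτp n), mul_sub, ← mul_assoc,
        mul_inv_cancel₀ (hτp n).ne', one_mul]
      linarith
    have hlim : Tendsto τ atTop (𝓝 0) := by
      simpa only [hτ, div_eq_mul_one_div (σ / (‖h‖ + 1)), mul_zero] using
        (tendsto_one_div_add_atTop_nhds_zero_nat (𝕜 := ℝ)).const_mul (σ / (‖h‖ + 1))
    have hcau : CauchySeq q := by
      refine cauchySeq_of_le_tendsto_0 (fun N => 2 * (C * ‖h‖ ^ 2 * τ N) / c) ?_ ?_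
      · intro n m N hn' hm'
        rw [dist_eq_norm, le_div_iff₀' hc]
        obtain ⟨i, hi⟩ := hn (q n - q m)
        refine hi.trans ?_
        rw [map_sub]
        have mono : ∀ j, N ≤ j → C * ‖h‖ ^ 2 * τ j ≤ C * ‖h‖ ^ 2 * τ N := fun j hj => by
          simp only [hτ]; gcongr
        have := abs_sub_le (P' i (q n)) (P i h) (P' i (q m))
        rw [abs_sub_comm (P i h)] at this
        linarith [hqn n i, hqn m i, mono n hn', mono m hm']
      · simpa using ((hlim.const_mul (C * ‖h‖ ^ 2)).const_mul 2).div_const c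
    obtain ⟨z, hz⟩ := cauchySeq_tendsto_of_complete hcau
    refine ⟨z, fun i => ?_⟩
    refine tendsto_nhds_unique (((P' i).continuous.tendsto z).comp hz) ?_
    rw [tendsto_iff_dist_tendsto_zero]
    refine squeeze_zero (fun _ => dist_nonneg) (fun n => hqn n i) ?_
    simpa using hlim.const_mul (C * ‖h‖ ^ 2)
  choose D₀ hD₀ using hex
  let D₁ : X →ₗ[ℝ] Y :=
    { toFun := D₀
      map_add' := fun a b => sub_eq_zero.1 <| hinj _ fun i => by simp [hD₀]
      map_smul' := fun r a => sub_eq_zero.1 <| hinj _ fun i => by simp [hD₀] }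
  let D : X →L[ℝ] Y := D₁.mkContinuous (M / c) fun h => by
    obtain ⟨i, hi⟩ := hn (D₀ h)
    rw [hD₀] at hi
    show ‖D₀ h‖ ≤ _
    rw [div_mul_eq_mul_div, le_div_iff₀' hc]
    exact hi.trans (((P i).le_opNorm h).trans (by gcongr; exact hP i))
  refine ⟨D, ?_, fun i h => hD₀ h i⟩
  rw [hasFDerivAt_iff_isLittleO_nhds_zero]
  refine (Asymptotics.IsBigO.of_bound (C / c) ?_).trans_isLittleO
    (Asymptotics.isLittleO_norm_pow_id (E' := X) one_lt_two)
  filter_upwards [ball_mem_nhds (0 : X) hσ] with h hh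
  rw [mem_ball_zero_iff] at hh
  rw [norm_pow, norm_norm, div_mul_eq_mul_div, le_div_iff₀' hc]
  obtain ⟨i, hi⟩ := hn (f (u + h) - f u - D h)
  refine hi.trans ?_
  rw [map_sub, show P' i (D h) = P i h from hD₀ h i]
  exact hq i h hh

/-- The extension is differentiable near a curved point, with Lipschitz invertible derivative. -/
lemma exists_regular [CompleteSpace X] [CompleteSpace Y] {v : X} {R σ C c : ℝ} (hσ : 0 < σ)
    (hC : 0 ≤ C) (hc : 0 < c) (ht : Tests s v R σ C c) :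
    ∃ M, 0 ≤ M ∧ ∀ u, ‖u - v‖ < σ / 6 →
      ∃ A : X ≃L[ℝ] Y, HasFDerivAt s.G (A : X →L[ℝ] Y) u ∧
        HasFDerivAt s.H (A.symm : Y →L[ℝ] X) (s.G u) ∧
        (∀ i, Idx v R i → ∀ h, tst (i.map s.G) (s.G u) (A h) = tst i u h) ∧
        ∀ u', ‖u' - v‖ < σ / 6 → ∀ A' : X →L[ℝ] Y, HasFDerivAt s.G A' u' →
          ‖A' - (A : X →L[ℝ] Y)‖ ≤ M * ‖u' - u‖ := by
  obtain ⟨hX, hY, hnX, hnY⟩ := ht
  have hone : ∀ i, Idx v R i → (∀ x, i = some x → ‖x‖ = 1) ∧
      ∀ y, i.map s.G = some y → ‖y‖ = 1 := by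
    rintro (_ | x) hi
    · exact ⟨fun x h => by simp at h, fun y h => by simp at h⟩
    · refine ⟨fun z hz => by cases hz; exact hi.1, fun y hy => ?_⟩
      cases hy
      rw [s.norm_G]; exact hi.1
  have hGn : ∀ u, ‖u - v‖ < σ / 6 → ‖s.G u - s.G v‖ < σ / 2 := fun u hu =>
    (s.norm_G_sub_le u v).trans_lt (by linarith)
  have hquad : ∀ i, Idx v R i → ∀ u, ‖u - v‖ < σ / 6 → ∀ h, ‖h‖ < σ / 6 →
      |tst (i.map s.G) (s.G u) (s.G (u + h) - s.G u) - tst i u h| ≤ 10 * C * ‖h‖ ^ 2 := by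
    intro i hi u hu h hh
    obtain ⟨a, -⟩ := (hX i hi u (by linarith)).2 h (by linarith)
    have hk : ‖s.G (u + h) - s.G u‖ ≤ 3 * ‖h‖ := by
      have := s.norm_G_sub_le (u + h) u
      rwa [add_sub_cancel_left] at this
    obtain ⟨b, -⟩ := (hY i hi (s.G u) ((hGn u hu).trans (by linarith))).2
      (s.G (u + h) - s.G u) (by linarith)
    rw [add_sub_cancel, s.tfun_map hi, s.tfun_map hi] at b
    have hk2 : C * ‖s.G (u + h) - s.G u‖ ^ 2 ≤ C * (3 * ‖h‖) ^ 2 := by gcongr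
    have := abs_sub_le (tst (i.map s.G) (s.G u) (s.G (u + h) - s.G u))
      (tfun i (u + h) - tfun i u) (tst i u h)
    rw [abs_sub_comm (tst (i.map s.G) (s.G u) (s.G (u + h) - s.G u))
      (tfun i (u + h) - tfun i u)] at this
    linarith
  refine ⟨(3 * (3 * C) + C) / c, by positivity, fun u hu => ?_⟩
  obtain ⟨D, hD, hDP⟩ := hasFDerivAt_of_tests (ι := {i // Idx v R i}) (fun i => tst i.1 u)
    (fun i => tst (i.1.map s.G) (s.G u)) (f := s.G) (u := u) (show 0 < σ / 6 by positivity) hc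
    (show 0 ≤ 10 * C by positivity) (M := 2) (fun i => norm_tst_le i.1 u (hone i.1 i.2).1)
    (fun k => by
      obtain ⟨i, hi, hk⟩ := hnY (s.G u) ((hGn u hu).trans (by linarith)) k
      exact ⟨⟨i, hi⟩, hk⟩)
    (fun i h hh => hquad i.1 i.2 u hu h hh)
  obtain ⟨J, hJ, hJP⟩ := hasFDerivAt_of_tests (ι := {i // Idx v R i})
    (fun i => tst (i.1.map s.G) (s.G u)) (fun i => tst i.1 u) (f := s.H) (u := s.G u)
    (show 0 < σ / 18 by positivity) hc
    (show 0 ≤ 90 * C by positivity) (M := 2)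
    (fun i => norm_tst_le (i.1.map s.G) (s.G u) (hone i.1 i.2).2)
    (fun k => by
      obtain ⟨i, hi, hk⟩ := hnX u (by linarith) k
      exact ⟨⟨i, hi⟩, hk⟩)
    (fun i k hk => by
      set d := s.H (s.G u + k) - u with hd
      have hdn : ‖d‖ ≤ 3 * ‖k‖ := by
        have := s.symm.norm_G_sub_le (s.G u + k) (s.G u)
        rwa [add_sub_cancel_left, symm_G, s.H_G] at this
      have h1 := hquad i.1 i.2 u hu d (by linarith)
      rw [show u + d = s.H (s.G u + k) by rw [hd]; abel, s.G_H, add_sub_cancel_left,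
        abs_sub_comm] at h1
      rw [s.H_G, ← hd]
      refine h1.trans ?_
      calc 10 * C * ‖d‖ ^ 2 ≤ 10 * C * (3 * ‖k‖) ^ 2 := by gcongr
        _ = _ := by ring)
  have hJD : ∀ h, J (D h) = h := fun h => by
    have h1 := hJ.comp u hD
    simp only [Function.comp_def, s.H_G] at h1
    exact DFunLike.congr_fun (h1.unique (hasFDerivAt_id u)) h
  have hDJ : ∀ k, D (J k) = k := fun k => by
    have h1 : HasFDerivAt (fun z => s.G (s.H z)) (D.comp J) (s.G u) :=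
      (show HasFDerivAt s.G D (s.H (s.G u)) by rw [s.H_G]; exact hD).comp (s.G u) hJ
    simp only [s.G_H] at h1
    exact DFunLike.congr_fun (h1.unique (hasFDerivAt_id (s.G u))) k
  refine ⟨ContinuousLinearEquiv.equivOfInverse D J hJD hDJ, hD, hJ,
    fun i hi h => hDP ⟨i, hi⟩ h, fun u' hu' A' hA' => ?_⟩
  show ‖A' - D‖ ≤ _
  have hA'n : ‖A'‖ ≤ 3 := hA'.le_of_lipschitz (C := 3)
    (LipschitzWith.of_dist_le_mul fun a b => by simpa [dist_eq_norm] using s.norm_G_sub_le a b)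
  have huu : ‖u' - u‖ < σ / 3 := by
    linarith [norm_sub_le_norm_sub_add_norm_sub u' v u, norm_sub_rev v u]
  refine ContinuousLinearMap.opNorm_le_bound _ (by positivity) fun h => ?_
  rw [sub_apply, div_mul_eq_mul_div, div_mul_eq_mul_div, le_div_iff₀' hc]
  obtain ⟨i, hi, hk⟩ := hnY (s.G u) ((hGn u hu).trans (by linarith)) (A' h - D h)
  refine hk.trans ?_
  have e1 : tst (i.map s.G) (s.G u') (A' h) = tst i u' h := by
    have hd : HasFDerivAt (fun z => tfun (i.map s.G) (s.G z))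
        ((fderiv ℝ (tfun (i.map s.G)) (s.G u')).comp A') u' :=
      ((hY i hi _ ((hGn u' hu').trans (by linarith))).1.hasFDerivAt).comp u' hA'
    have hfun : (fun z => tfun (i.map s.G) (s.G z)) = tfun i := funext fun z => s.tfun_map hi z
    rw [hfun] at hd
    have h1 := tst_eq_fderiv (fun h hh => ((hX i hi u' (by linarith)).2 h hh).1) hσ
      (hX i hi u' (by linarith)).1
    have h2 := tst_eq_fderiv
      (fun h hh => ((hY i hi _ ((hGn u' hu').trans (by linarith))).2 h hh).1) hσ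
      (hY i hi _ ((hGn u' hu').trans (by linarith))).1
    rw [← h1, ← h2, hd.fderiv]
    rfl
  obtain ⟨-, hlX⟩ := (hX i hi u (by linarith)).2 (u' - u) (by linarith)
  obtain ⟨-, hlY⟩ := (hY i hi (s.G u) ((hGn u hu).trans (by linarith))).2 (s.G u' - s.G u)
    (by linarith [s.norm_G_sub_le u' u])
  rw [add_sub_cancel] at hlX hlY
  have e2 : tst (i.map s.G) (s.G u) (D h) = tst i u h := hDP ⟨i, hi⟩ h
  rw [map_sub, e2,
    show tst (i.map s.G) (s.G u) (A' h) - tst i u h =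
      (tst i u' h - tst i u h) - (tst (i.map s.G) (s.G u') (A' h) - tst (i.map s.G) (s.G u) (A' h))
      by rw [e1]; ring]
  refine (abs_sub _ _).trans ?_
  have hb1 : |tst i u' h - tst i u h| ≤ C * ‖u' - u‖ * ‖h‖ := by
    rw [← sub_apply]
    exact ((tst i u' - tst i u).le_opNorm h).trans (by gcongr)
  have hb2 : |tst (i.map s.G) (s.G u') (A' h) - tst (i.map s.G) (s.G u) (A' h)| ≤
      C * (3 * ‖u' - u‖) * (3 * ‖h‖) := by
    rw [← sub_apply]
    refine ((tst (i.map s.G) (s.G u') - tst (i.map s.G) (s.G u)).le_opNorm _).trans ?_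
    refine mul_le_mul (hlY.trans (mul_le_mul_of_nonneg_left (s.norm_G_sub_le u' u) hC)) ?_
      (norm_nonneg _) (by positivity)
    exact (A'.le_opNorm h).trans (by gcongr)
  linarith

end SphIso

end Vale.Agent.P084
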