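import Vale.Agent.P084.Inf.Centre

/-!
P084 (Tingley's problem), library for arbitrary dimension: the extension has a second derivative
in the weak sense at every curved point.
-/

namespace Vale.Agent.P084

open Filter Topology Metric

variable {X Y : Type*} [NormedAddCommGroup X] [NormedSpace ℝ X] [NormedAddCommGroup Y]
  [NormedSpace ℝ Y]

/-- The derivative of a chord test. -/
lemma hasFDerivAt_tfun_some {x u : X} (hu : DifferentiableAt ℝ (fun z : X => ‖z‖) u)
    (hc : DifferentiableAt ℝ (fun z : X => ‖z‖) (u - ‖u‖ • x)) :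
    HasFDerivAt (tfun (some x)) (tst (some x) u) u := by
  have h := hc.hasFDerivAt.comp u ((hasFDerivAt_id u).sub (hu.hasFDerivAt.smul_const x))
  refine h.congr_fderiv ?_
  refine ContinuousLinearMap.ext fun k => ?_
  rw [tst_some]
  simp
  ring

/-- The derivative of the derivative of a chord test. -/
lemma hasFDerivAt_tst {x u : X} {Q₁ Q₂ : X →L[ℝ] X →L[ℝ] ℝ}
    (hu : DifferentiableAt ℝ (fun z : X => ‖z‖) u) (h₁ : HasFDerivAt (fun z : X => dN z) Q₁ u)
    (h₂ : HasFDerivAt (fun z : X => dN z) Q₂ (u - ‖u‖ • x)) :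
    ∃ T : X →L[ℝ] X →L[ℝ] ℝ, HasFDerivAt (fun z => tst (some x) z) T u ∧ ∀ h c,
      T h c = Q₂ (h - dN u h • x) c - dN (u - ‖u‖ • x) x * Q₁ h c
        - Q₂ (h - dN u h • x) x * dN u c := by
  have hl : HasFDerivAt (fun z => dN (z - ‖z‖ • x))
      (Q₂.comp (ContinuousLinearMap.id ℝ X - (dN u).smulRight x)) u :=
    h₂.comp u ((hasFDerivAt_id u).sub (hu.hasFDerivAt.smul_const x))
  refine ⟨_, hl.sub ((hl.clm_apply (hasFDerivAt_const x u)).smul h₁), fun h c => ?_⟩
  simp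
  ring

/-- Second derivatives of a norm scale along rays. -/
lemma hasFDerivAt_dN_scale {w : X} {Q : X →L[ℝ] X →L[ℝ] ℝ}
    (h : HasFDerivAt (fun z : X => dN z) Q w) {t : ℝ} (ht : 0 < t) :
    HasFDerivAt (fun z : X => dN z) (t⁻¹ • Q) (t • w) := by
  have hs : HasFDerivAt (fun z : X => t⁻¹ • z) (t⁻¹ • ContinuousLinearMap.id ℝ X) (t • w) :=
    (hasFDerivAt_id _).const_smul t⁻¹
  have h' : HasFDerivAt (fun z : X => dN z) Q (t⁻¹ • t • w) := by
    rwa [smul_smul, inv_mul_cancel₀ ht.ne', one_smul]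
  have := h'.comp (t • w) hs
  simp only [Function.comp_def, dN_smul_pos _ (inv_pos.2 ht)] at this
  refine this.congr_fderiv ?_
  refine ContinuousLinearMap.ext fun k => ?_
  simp

/-- Two differentiabilities, transported to twice a point. -/
lemma eventually_double {w : X} (h : ∀ᶠ z in 𝓝 w,
    DifferentiableAt ℝ (fun z : X => ‖z‖) z ∧ DifferentiableAt ℝ (fun z : X => dN z) z) :
    ∀ᶠ z in 𝓝 ((2 : ℝ) • w),
      DifferentiableAt ℝ (fun z : X => ‖z‖) z ∧ DifferentiableAt ℝ (fun z : X => dN z) z := by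
  have hc : Tendsto (fun z : X => (1 / 2 : ℝ) • z) (𝓝 ((2 : ℝ) • w)) (𝓝 w) :=
    (continuous_const_smul (1 / 2 : ℝ)).tendsto' _ _ (by rw [smul_smul]; norm_num)
  filter_upwards [hc.eventually h] with z hz
  constructor
  · have h1 := (hz.1.comp z ((differentiableAt_id).const_smul (1 / 2 : ℝ))).const_mul (2 : ℝ)
    refine h1.congr_of_eventuallyEq (Eventually.of_forall fun y => ?_)
    simp [norm_smul]
  · have h1 := hz.2.comp z ((differentiableAt_id).const_smul (1 / 2 : ℝ))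
    refine h1.congr_of_eventuallyEq (Eventually.of_forall fun y => ?_)
    exact (dN_smul_pos y (by norm_num : (0 : ℝ) < 1 / 2)).symm

/-- A product of a small factor with a Lipschitz one. -/
lemma hasFDerivAt_small_mul {Z : Type*} [NormedAddCommGroup Z] [NormedSpace ℝ Z]
    {P : X → Z →L[ℝ] ℝ} {a : X → Z} {y : X} {L : ℝ} (hL : 0 ≤ L) (hP : ContinuousAt P y)
    (ha : ∀ᶠ u in 𝓝 y, ‖a u‖ ≤ L * ‖u - y‖) :
    HasFDerivAt (fun u => (P u - P y) (a u)) (0 : X →L[ℝ] ℝ) y := by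
  rw [hasFDerivAt_iff_isLittleO, Asymptotics.isLittleO_iff]
  intro ε hε
  filter_upwards [ha, hP.tendsto.eventually_mem (ball_mem_nhds (α := Z →L[ℝ] ℝ) (P y)
    (show 0 < ε / (L + 1) by positivity))] with u h1 h2
  rw [mem_ball_iff_norm (E := Z →L[ℝ] ℝ)] at h2
  simp only [sub_self, zero_apply, sub_zero]
  refine ((P u - P y).le_opNorm _).trans ?_
  calc ‖P u - P y‖ * ‖a u‖ ≤ ε / (L + 1) * (L * ‖u - y‖) :=
        mul_le_mul h2.le h1 (norm_nonneg _) (by positivity)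
    _ ≤ ε * ‖u - y‖ := by
        rw [← mul_assoc]
        gcongr
        rw [div_mul_eq_mul_div, div_le_iff₀ (by positivity)]
        nlinarith

namespace GoodAt

variable {y : X} (hy : GoodAt y)
include hy

lemma hasFDerivAt_dN : HasFDerivAt (fun z : X => dN z) (ddN y) y :=
  ((hy.2.1.self_of_nhds.fderiv_right (m := 1) (by norm_num)).differentiableAt
    (by norm_num)).hasFDerivAt

lemma radial : (∀ k, ddN y y k = 0) ∧ ∀ h, ddN y h y = 0 :=
  ddN_radial hy.ne_zero hy.hasFDerivAt_dN.differentiableAt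
    (hy.2.1.mono fun _ hz => hz.differentiableAt (by norm_num))

lemma symm' (a b : X) : ddN y a b = ddN y b a :=
  hy.2.1.self_of_nhds.isSymmSndFDerivAt (by simp) a b

lemma both : ∀ᶠ z in 𝓝 y,
    DifferentiableAt ℝ (fun z : X => ‖z‖) z ∧ DifferentiableAt ℝ (fun z : X => dN z) z :=
  hy.2.1.mono fun _ hz => ⟨hz.differentiableAt (by norm_num),
    (hz.fderiv_right (m := 1) (by norm_num)).differentiableAt (by norm_num)⟩

end GoodAt

namespace SphIso

variable (s : SphIso X Y)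

/-- `φ` sees a second derivative of the extension at `y`. -/
def Weak (y : X) (φ : Y →L[ℝ] ℝ) : Prop :=
  ∀ c, DifferentiableAt ℝ (fun u => φ (s.dG u c)) y

lemma weak_sub {y : X} {φ ψ : Y →L[ℝ] ℝ} (h₁ : s.Weak y φ) (h₂ : s.Weak y ψ) :
    s.Weak y (φ - ψ) :=
  fun c => (h₁ c).sub (h₂ c)

lemma weak_add {y : X} {φ ψ : Y →L[ℝ] ℝ} (h₁ : s.Weak y φ) (h₂ : s.Weak y ψ) :
    s.Weak y (φ + ψ) :=
  fun c => (h₁ c).add (h₂ c)

lemma weak_smul {y : X} {φ : Y →L[ℝ] ℝ} (r : ℝ) (h : s.Weak y φ) : s.Weak y (r • φ) :=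
  fun c => (h c).const_mul r

namespace Centre

variable {s} {y : X} (hy : s.Centre y)
include hy

lemma diffG : ∀ᶠ u in 𝓝 y, DifferentiableAt ℝ s.G u :=
  hy.equiv.mono fun _ ⟨_, h, _⟩ => h.differentiableAt

lemma bothY : ∀ᶠ z in 𝓝 (s.G y),
    DifferentiableAt ℝ (fun z : Y => ‖z‖) z ∧ DifferentiableAt ℝ (fun z : Y => dN z) z :=
  hy.diffY.and hy.twice

lemma radialY : (∀ k, ddN (s.G y) (s.G y) k = 0) ∧ ∀ h, ddN (s.G y) h (s.G y) = 0 := by
  refine ddN_radial ?_ hy.twice.self_of_nhds hy.diffY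
  rw [← norm_ne_zero_iff, s.norm_G, norm_ne_zero_iff]
  exact hy.good.ne_zero

lemma dG_self : s.dG y y = s.G y := s.dG_self_of_differentiable hy.diffG.self_of_nhds

lemma norm_dG {a : X} (ha : dN y a = 0) : ‖s.dG y a‖ = ‖a‖ :=
  s.norm_dG_of_differentiable hy.good.ne_zero hy.diffG.self_of_nhds
    (hy.good.both.self_of_nhds).1 ha

/-- The derivatives of the two norms correspond near `y`. -/
lemma dN_dG : ∀ᶠ u in 𝓝 y, ∀ c, dN (s.G u) (s.dG u c) = dN u c := by
  filter_upwards [hy.diffG, s.continuous_G.continuousAt.tendsto.eventually hy.diffY,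
    hy.good.both] with u h1 h2 h3 c
  have h : HasFDerivAt (fun z => ‖s.G z‖) ((dN (s.G u)).comp (s.dG u)) u :=
    h2.hasFDerivAt.comp u h1.hasFDerivAt
  simp only [s.norm_G] at h
  exact DFunLike.congr_fun (h.unique h3.1.hasFDerivAt) c

/-- Differentiating a pairing of a differentiable functional with the derivative. -/
lemma pair {P : X → Y →L[ℝ] ℝ} {p : X → X →L[ℝ] ℝ} {P' : X →L[ℝ] Y →L[ℝ] ℝ}
    {p' : X →L[ℝ] X →L[ℝ] ℝ} (hP : HasFDerivAt P P' y) (hp : HasFDerivAt p p' y)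
    (h : ∀ᶠ u in 𝓝 y, ∀ c, P u (s.dG u c) = p u c) (c : X) :
    HasFDerivAt (fun u => P y (s.dG u c)) (p'.flip c - P'.flip (s.dG y c)) y := by
  obtain ⟨M, hM, hlip⟩ := hy.lip
  obtain ⟨K, hK, hKb⟩ := hP.isBigO_sub.exists_nonneg
  have h1 : HasFDerivAt (fun u => p u c) (p'.flip c) y := by
    simpa using hp.clm_apply (hasFDerivAt_const c y)
  have h2 : HasFDerivAt (fun u => (P u - P y) (s.dG y c)) (P'.flip (s.dG y c)) y := by
    simpa using (hP.sub_const (P y)).clm_apply (hasFDerivAt_const (s.dG y c) y)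
  have h3 : HasFDerivAt (fun u => (P u - P y) (s.dG u c - s.dG y c)) (0 : X →L[ℝ] ℝ) y := by
    refine hasFDerivAt_diff_mul (L := K + M * ‖c‖) (a := fun u => s.dG u c) (by positivity) ?_ ?_
    · filter_upwards [hKb.bound] with u hu
      exact hu.trans (mul_le_mul_of_nonneg_right (le_add_of_nonneg_right (by positivity))
        (norm_nonneg _))
    · filter_upwards [hlip] with u hu
      rw [← sub_apply]
      refine ((s.dG u - s.dG y).le_opNorm c).trans ?_
      refine (mul_le_mul_of_nonneg_right hu (norm_nonneg c)).trans ?_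
      have : 0 ≤ K * ‖u - y‖ := by positivity
      linarith
  refine (((h1.sub h2).sub h3).congr_fderiv (sub_zero _)).congr_of_eventuallyEq
    (h.mono fun u hu => ?_)
  simp [hu]
  ring

/-- The chord tests correspond. -/
lemma test : ∀ᶠ x in 𝓝 (-y), ‖x‖ = 1 →
    (∀ᶠ u in 𝓝 y, ∀ c, tst (some (s.G x)) (s.G u) (s.dG u c) = tst (some x) u c) ∧
    DifferentiableAt ℝ (fun u => tst (some x) u) y ∧
    DifferentiableAt ℝ (fun z => tst (some (s.G x)) z) (s.G y) := by
  have hn : ‖y‖ = 1 := hy.good.1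
  have hX := eventually_eventually_nhds.2 (eventually_double hy.good.both)
  have hY := eventually_eventually_nhds.2 (eventually_double hy.bothY)
  have hcX : Tendsto (fun x : X => y - ‖y‖ • x) (𝓝 (-y)) (𝓝 ((2 : ℝ) • y)) :=
    (show Continuous fun x : X => y - ‖y‖ • x by fun_prop).tendsto' _ _ (by
      rw [hn, one_smul, sub_neg_eq_add, two_smul])
  have hcY : Tendsto (fun x : X => s.G y - ‖s.G y‖ • s.G x) (𝓝 (-y))
      (𝓝 ((2 : ℝ) • s.G y)) :=
    (continuous_const.sub (s.continuous_G.const_smul _)).tendsto' _ _ (by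
      simp [s.norm_G, hn, s.G_neg, two_smul])
  filter_upwards [hcX.eventually hX, hcY.eventually hY] with x hxX hxY hx
  refine ⟨?_, ?_, ?_⟩
  · have e1 : Tendsto (fun u : X => u - ‖u‖ • x) (𝓝 y) (𝓝 (y - ‖y‖ • x)) :=
      (show Continuous fun u : X => u - ‖u‖ • x by fun_prop).tendsto _
    have e2 : Tendsto (fun u : X => s.G u - ‖s.G u‖ • s.G x) (𝓝 y)
        (𝓝 (s.G y - ‖s.G y‖ • s.G x)) :=
      (s.continuous_G.sub (s.continuous_G.norm.smul continuous_const)).tendsto _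
    filter_upwards [hy.diffG, hy.good.both, s.continuous_G.continuousAt.tendsto.eventually hy.diffY,
      e1.eventually hxX, e2.eventually hxY] with u h1 h2 h3 h4 h5 c
    have h := (hasFDerivAt_tfun_some h3 h5.1).comp u h1.hasFDerivAt
    have e : tfun (some (s.G x)) ∘ s.G = tfun (some x) := by
      funext z
      show ‖s.G z - ‖s.G z‖ • s.G x‖ = ‖z - ‖z‖ • x‖
      rw [s.norm_G]
      exact s.key z x hx
    rw [e] at h
    exact DFunLike.congr_fun (h.unique (hasFDerivAt_tfun_some h2.1 h4.1)) c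
  · obtain ⟨T, hT, -⟩ := hasFDerivAt_tst hy.good.both.self_of_nhds.1
      hy.good.hasFDerivAt_dN hxX.self_of_nhds.2.hasFDerivAt
    exact hT.differentiableAt
  · obtain ⟨T, hT, -⟩ := hasFDerivAt_tst hy.diffY.self_of_nhds
      hy.twice.self_of_nhds.hasFDerivAt hxY.self_of_nhds.2.hasFDerivAt
    exact hT.differentiableAt

/-- The forms correspond, and the radial functional has no second derivative. -/
lemma pullback : (∀ h c, ddN (s.G y) (s.dG y h) (s.dG y c) = ddN y h c) ∧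
    ∀ c, HasFDerivAt (fun u => dN (s.G y) (s.dG u c)) (0 : X →L[ℝ] ℝ) y := by
  set a := s.G y with ha
  have hn : ‖y‖ = 1 := hy.good.1
  have hna : ‖a‖ = 1 := by rw [ha, s.norm_G, hn]
  have hG := hy.diffG.self_of_nhds.hasFDerivAt
  have hQ' := hy.twice.self_of_nhds.hasFDerivAt
  have haa : dN a a = 1 := by
    rw [hy.diffY.self_of_nhds.fderiv_norm_self, hna]
  have h₀ := hy.pair (hQ'.comp y hG) hy.good.hasFDerivAt_dN hy.dN_dG
  have hx : ‖-y‖ = 1 := by rw [norm_neg, hn]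
  obtain ⟨hid, -, -⟩ := hy.test.self_of_nhds hx
  have cX : y - ‖y‖ • -y = (2 : ℝ) • y := by rw [hn, one_smul, sub_neg_eq_add, two_smul]
  have cY : a - ‖a‖ • s.G (-y) = (2 : ℝ) • a := by
    rw [hna, one_smul, s.G_neg, sub_neg_eq_add, two_smul]
  obtain ⟨T, hT, hTf⟩ := hasFDerivAt_tst (x := -y) hy.good.both.self_of_nhds.1
    hy.good.hasFDerivAt_dN (by rw [cX]; exact hasFDerivAt_dN_scale hy.good.hasFDerivAt_dN two_pos)
  obtain ⟨T', hT', hTf'⟩ := hasFDerivAt_tst (x := s.G (-y)) hy.diffY.self_of_nhds hQ'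
    (by rw [← ha, cY]; exact hasFDerivAt_dN_scale hQ' two_pos)
  have h₁ := hy.pair (hT'.comp y hG) hT hid
  have hP : tst (some (s.G (-y))) a = (2 : ℝ) • dN a := by
    ext z
    rw [tst_some, cY, dN_smul_pos _ two_pos, s.G_neg, map_neg, ← ha, haa, smul_apply, smul_eq_mul]
    ring
  have key : ∀ h c, ddN a (s.dG y h) (s.dG y c) = ddN y h c := by
    intro h c
    have h₂ := DFunLike.congr_fun ((((h₀ c).const_mul (2 : ℝ)).congr_of_eventuallyEq
      (Eventually.of_forall fun u => by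
        show tst (some (s.G (-y))) a (s.dG u c) = 2 * dN a (s.dG u c)
        rw [hP, smul_apply, smul_eq_mul])).unique (h₁ c)) h
    simp only [Function.comp_def, sub_apply, smul_apply, ContinuousLinearMap.flip_apply,
      ContinuousLinearMap.coe_comp, smul_eq_mul] at h₂
    rw [hTf, hTf', cX, cY, dN_smul_pos _ two_pos, dN_smul_pos _ two_pos] at h₂
    obtain ⟨hr1, hr2⟩ := hy.good.radial
    obtain ⟨hr1', hr2'⟩ := hy.radialY
    rw [← ha] at hr1' hr2'
    simp [s.G_neg, ← ha, hy.good.dN_self, haa, hr1, hr2, hr1', hr2'] at h₂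
    linarith
  refine ⟨key, fun c => (h₀ c).congr_fderiv ?_⟩
  refine ContinuousLinearMap.ext fun h => ?_
  show ddN y h c - ddN a (s.dG y h) (s.dG y c) = 0
  rw [key, sub_self]

/-- The functionals seeing a second derivative form a closed set. -/
lemma isClosed_weak : IsClosed {φ : Y →L[ℝ] ℝ | s.Weak y φ} := by
  refine IsSeqClosed.isClosed fun φ φ₀ hφ hlim c => ?_
  obtain ⟨M, hM, hlip⟩ := hy.lip
  have hb : ∀ ψ : Y →L[ℝ] ℝ, ∀ᶠ u in 𝓝 y,
      ‖ψ (s.dG u c) - ψ (s.dG y c)‖ ≤ ‖ψ‖ * (M * ‖c‖) * ‖u - y‖ := fun ψ => by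
    filter_upwards [hlip] with u hu
    rw [← map_sub, ← sub_apply]
    refine (ψ.le_opNorm _).trans ?_
    rw [mul_assoc]
    refine mul_le_mul_of_nonneg_left ?_ (norm_nonneg _)
    refine ((s.dG u - s.dG y).le_opNorm c).trans ?_
    refine (mul_le_mul_of_nonneg_right hu (norm_nonneg c)).trans_eq ?_
    ring
  set D : ℕ → X →L[ℝ] ℝ := fun n => fderiv ℝ (fun u => φ n (s.dG u c)) y with hD
  have hDd : ∀ n, HasFDerivAt (fun u => φ n (s.dG u c)) (D n) y :=
    fun n => (hφ n c).hasFDerivAt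
  have hDl : ∀ n m, ‖D n - D m‖ ≤ ‖φ n - φ m‖ * (M * ‖c‖) := fun n m => by
    refine ((hDd n).sub (hDd m)).le_of_lip' (by positivity) ?_
    filter_upwards [hb (φ n - φ m)] with u hu
    simpa using hu
  have hcau : CauchySeq D := by
    rw [Metric.cauchySeq_iff]
    intro ε hε
    obtain ⟨N, hN⟩ := Metric.cauchySeq_iff.1 hlim.cauchySeq (ε / (M * ‖c‖ + 1)) (by positivity)
    refine ⟨N, fun m hm n hn => ?_⟩
    have h1 := hN m hm n hn
    rw [dist_eq_norm] at h1 ⊢
    rw [lt_div_iff₀ (by positivity)] at h1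
    have := hDl m n
    nlinarith [norm_nonneg (φ m - φ n)]
  obtain ⟨D₀, hD₀⟩ := cauchySeq_tendsto_of_complete hcau
  refine (show HasFDerivAt (fun u => φ₀ (s.dG u c)) D₀ y from ?_).differentiableAt
  rw [hasFDerivAt_iff_isLittleO, Asymptotics.isLittleO_iff]
  intro ε hε
  have hsmall : Tendsto (fun n => ‖φ₀ - φ n‖ * (M * ‖c‖) + ‖D n - D₀‖) atTop (𝓝 0) := by
    simpa using ((tendsto_iff_norm_sub_tendsto_zero.1 hlim).congr fun n =>
      norm_sub_rev _ _).mul_const (M * ‖c‖) |>.add (tendsto_iff_norm_sub_tendsto_zero.1 hD₀)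
  obtain ⟨n, hn⟩ := (hsmall.eventually_lt_const (half_pos hε)).exists
  filter_upwards [hb (φ₀ - φ n),
    (hasFDerivAt_iff_isLittleO.1 (hDd n)).def (half_pos hε)] with u h1 h2
  have h3 : ‖(D n - D₀) (u - y)‖ ≤ ‖D n - D₀‖ * ‖u - y‖ := (D n - D₀).le_opNorm _
  simp only [sub_apply, Real.norm_eq_abs] at h1 h2 h3 ⊢
  have h4 := mul_le_mul_of_nonneg_right hn.le (norm_nonneg (u - y))
  rw [abs_le] at h1 h2 h3 ⊢
  constructor <;> linarith

/-- The tangent forms see a second derivative. -/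
lemma weak_form {A : X ≃L[ℝ] Y} (hA : HasFDerivAt s.G (A : X →L[ℝ] Y) y) {η : X}
    (hη : dN y η = 0) : s.Weak y ((ddN y η).comp (A.symm : Y →L[ℝ] X)) := by
  have hn : ‖y‖ = 1 := hy.good.1
  have hAe : s.dG y = (A : X →L[ℝ] Y) := hA.fderiv
  set γ : ℝ → X := fun t => ‖-y + t • η‖⁻¹ • (-y + t • η) with hγ
  have hl : HasDerivAt (fun t : ℝ => -y + t • η) η 0 := by
    simpa using ((hasDerivAt_id (0 : ℝ)).smul_const η).const_add (-y)
  have hnd : HasDerivAt (fun t : ℝ => ‖-y + t • η‖) 0 0 := by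
    have hm : DifferentiableAt ℝ (fun z : X => ‖z‖) (-y) := by
      have := (show DifferentiableAt ℝ (fun z : X => ‖z‖) ((-1 : ℝ) • -y) by
        simpa using hy.good.both.self_of_nhds.1).comp (-y) (differentiableAt_id.const_smul (-1 : ℝ))
      simpa [Function.comp_def, norm_smul] using this
    have h := hm.hasFDerivAt.comp_hasDerivAt_of_eq 0 hl (by simp)
    rw [show fderiv ℝ (fun z : X => ‖z‖) (-y) η = 0 by
      show dN (-y) η = 0
      rw [dN_neg, neg_apply, hη, neg_zero]] at h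
    exact h
  have hγ0 : γ 0 = -y := by simp [hγ, hn]
  have hγd : HasDerivAt γ η 0 := by
    refine ((hnd.inv (by simp [hn])).smul hl).congr_deriv ?_
    simp [hn]
  have hne : ∀ᶠ t in 𝓝 (0 : ℝ), ‖γ t‖ = 1 := by
    filter_upwards [hl.continuousAt.tendsto.eventually_ne (show -y + (0 : ℝ) • η ≠ 0 by
      simpa using hy.good.ne_zero)] with t ht
    exact norm_smul_inv_norm ht
  have hQ := hasFDerivAt_dN_scale hy.good.hasFDerivAt_dN two_pos
  have hq : HasDerivAt (fun t => dN (y - γ t)) ((-(1 / 2) : ℝ) • ddN y η) 0 := by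
    refine (hQ.comp_hasDerivAt_of_eq 0 (hγd.const_sub y) (by
      rw [hγ0, sub_neg_eq_add, two_smul])).congr_deriv ?_
    simp
    module
  have hψ : HasDerivAt (fun t => tst (some (γ t)) y) ((-(1 / 2) : ℝ) • ddN y η) 0 := by
    have h := hq.sub ((hq.clm_apply hγd).smul_const (dN y))
    have e : (fun t => tst (some (γ t)) y) =
        (fun t => dN (y - γ t) - dN (y - γ t) (γ t) • dN y) := by
      funext t
      show dN (y - ‖y‖ • γ t) - dN (y - ‖y‖ • γ t) (γ t) • dN y = _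
      rw [hn, one_smul]
    rw [e]
    refine h.congr_deriv ?_
    rw [hγ0, sub_neg_eq_add, ← two_smul ℝ y, dN_smul_pos _ two_pos, hη]
    simp [hy.good.radial.2]
  have hφ : HasDerivAt (fun t => (tst (some (γ t)) y).comp (A.symm : Y →L[ℝ] X))
      ((-(1 / 2) : ℝ) • (ddN y η).comp (A.symm : Y →L[ℝ] X)) 0 := by
    have := ((ContinuousLinearMap.compL ℝ Y X ℝ).flip
      (A.symm : Y →L[ℝ] X)).hasFDerivAt.comp_hasDerivAt 0 hψ
    refine this.congr_deriv ?_
    ext z
    simp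
  have hc : Tendsto γ (𝓝 0) (𝓝 (-y)) := hγ0 ▸ hγd.continuousAt.tendsto
  have hw : ∀ᶠ t in 𝓝 (0 : ℝ), s.Weak y ((tst (some (γ t)) y).comp (A.symm : Y →L[ℝ] X)) := by
    filter_upwards [hc.eventually hy.test, hne] with t ht h1
    obtain ⟨hid, hdX, hdY⟩ := ht h1
    have e : (tst (some (γ t)) y).comp (A.symm : Y →L[ℝ] X) = tst (some (s.G (γ t))) (s.G y) := by
      ext z
      have := hid.self_of_nhds (A.symm z)
      rw [hAe] at this
      simpa using this.symm
    intro c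
    rw [e]
    exact (hy.pair ((hdY.hasFDerivAt).comp y (hy.diffG.self_of_nhds.hasFDerivAt)) hdX.hasFDerivAt
      hid c).differentiableAt
  have hlim := hy.isClosed_weak.mem_of_tendsto hφ.tendsto_slope_zero (by
    filter_upwards [((continuous_const_add (0 : ℝ)).tendsto' 0 0 (add_zero _)).eventually hw
      |>.filter_mono nhdsWithin_le_nhds] with t ht
    exact s.weak_smul _ (s.weak_sub ht hw.self_of_nhds))
  have h2 := s.weak_smul (-2) hlim
  rwa [smul_smul, show (-2 : ℝ) * -(1 / 2) = 1 by norm_num, one_smul] at h2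

/-- Every functional splits into the radial one and a tangent form. -/
lemma split [CompleteSpace X] {A : X ≃L[ℝ] Y} (hA : HasFDerivAt s.G (A : X →L[ℝ] Y) y)
    (φ : Y →L[ℝ] ℝ) : ∃ r, dN y r = 0 ∧ φ (A y) • dN y + ddN y r = φ.comp (A : X →L[ℝ] Y) ∧
      φ = φ (A y) • dN (s.G y) + (ddN y r).comp (A.symm : Y →L[ℝ] X) := by
  obtain ⟨κ, hκ, hco⟩ := hy.good.2.2
  obtain ⟨r, hr, hrep⟩ := exists_rep (dN y) (ddN y) hy.good.symm' hκ hco
    (φ.comp (A : X →L[ℝ] Y))
  have h1 : φ (A y) • dN y + ddN y r = φ.comp (A : X →L[ℝ] Y) := by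
    ext k
    have := hrep (k - dN y k • y) (by simp [hy.good.dN_self])
    simp [hy.good.radial.2] at this ⊢
    linarith
  refine ⟨r, hr, h1, ?_⟩
  have hAe : s.dG y = (A : X →L[ℝ] Y) := hA.fderiv
  ext z
  have h2 := DFunLike.congr_fun h1 (A.symm z)
  have h3 := hy.dN_dG.self_of_nhds (A.symm z)
  rw [hAe] at h3
  simp at h2 h3 ⊢
  rw [h3]
  linarith

lemma weak_all [CompleteSpace X] (φ : Y →L[ℝ] ℝ) : s.Weak y φ := by
  obtain ⟨A, hA, -⟩ := hy.equiv.self_of_nhds
  obtain ⟨r, hr, -, hφ⟩ := hy.split hA φ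
  rw [hφ]
  exact s.weak_add (s.weak_smul _ fun c => (hy.pullback.2 c).differentiableAt)
    (hy.weak_form hA hr)

/-- The second derivative of the extension, pulled back. -/
lemma exists_B [CompleteSpace X] :
    ∃ B : X →L[ℝ] X →L[ℝ] X, (∀ h c, dN y (B h c) = 0) ∧ ∀ (φ : Y →L[ℝ] ℝ) (c : X),
      HasFDerivAt (fun u => φ (s.dG u c)) ((φ.comp (s.dG y)).comp (B.flip c)) y := by
  obtain ⟨A, hA, -⟩ := hy.equiv.self_of_nhds
  have hAe : s.dG y = (A : X →L[ℝ] Y) := hA.fderiv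
  obtain ⟨M, hM, hlip⟩ := hy.lip
  set d : (Y →L[ℝ] ℝ) → X → X →L[ℝ] ℝ := fun φ c => fderiv ℝ (fun u => φ (s.dG u c)) y with hd
  have hdd : ∀ φ c, HasFDerivAt (fun u => φ (s.dG u c)) (d φ c) y :=
    fun φ c => (hy.weak_all φ c).hasFDerivAt
  have hdn : ∀ φ c, ‖d φ c‖ ≤ ‖φ‖ * (M * ‖c‖) := fun φ c => by
    refine (hdd φ c).le_of_lip' (by positivity) ?_
    filter_upwards [hlip] with u hu
    rw [← map_sub, ← sub_apply]
    refine (φ.le_opNorm _).trans ?_
    rw [mul_assoc]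
    refine mul_le_mul_of_nonneg_left ?_ (norm_nonneg _)
    refine ((s.dG u - s.dG y).le_opNorm c).trans ?_
    refine (mul_le_mul_of_nonneg_right hu (norm_nonneg c)).trans_eq ?_
    ring
  have hadd : ∀ φ ψ c, d (φ + ψ) c = d φ c + d ψ c := fun φ ψ c =>
    (hdd (φ + ψ) c).unique ((hdd φ c).add (hdd ψ c))
  have hsmul : ∀ (r : ℝ) φ c, d (r • φ) c = r • d φ c := fun r φ c =>
    (hdd (r • φ) c).unique ((hdd φ c).const_mul r)
  have hzero : ∀ c, d (dN (s.G y)) c = 0 := fun c => (hdd _ c).unique (hy.pullback.2 c)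
  obtain ⟨κ, hκ, hco⟩ := hy.good.2.2
  let J : X →L[ℝ] Y →L[ℝ] ℝ :=
    ((ContinuousLinearMap.compL ℝ Y X ℝ).flip (A.symm : Y →L[ℝ] X)).comp (ddN y)
  have hex : ∀ h c, ∃ r, dN y r = 0 ∧ ∀ φ : Y →L[ℝ] ℝ, φ (A r) = d φ c h := by
    intro h c
    let Φ : (Y →L[ℝ] ℝ) →ₗ[ℝ] ℝ :=
      { toFun := fun φ => d φ c h
        map_add' := fun φ ψ => by rw [hadd]; rfl
        map_smul' := fun r φ => by rw [hsmul]; rfl }
    let Φ' : (Y →L[ℝ] ℝ) →L[ℝ] ℝ := Φ.mkContinuous (M * ‖c‖ * ‖h‖) fun φ => by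
      refine ((d φ c).le_opNorm h).trans ?_
      refine (mul_le_mul_of_nonneg_right (hdn φ c) (norm_nonneg h)).trans_eq ?_
      ring
    obtain ⟨r, hr, hrep⟩ := exists_rep (dN y) (ddN y) hy.good.symm' hκ hco (Φ'.comp J)
    refine ⟨r, hr, fun φ => ?_⟩
    obtain ⟨z, hz, hψ, hφ⟩ := hy.split hA φ
    have h1 : ddN y r z = d ((ddN y z).comp (A.symm : Y →L[ℝ] X)) c h := hrep z hz
    have h2 := DFunLike.congr_fun hψ r
    rw [hy.good.symm' r z] at h1
    conv_rhs => rw [hφ, hadd, hsmul, hzero, smul_zero, zero_add]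
    simp [hr] at h2
    rw [← h1, h2]
  choose b hb0 hb using hex
  have huniq : ∀ r r' : X, (∀ φ : Y →L[ℝ] ℝ, φ (A r) = φ (A r')) → r = r' := fun r r' h =>
    A.injective (SeparatingDual.eq_iff_forall_dual_eq.2 h)
  let B₀ : X →ₗ[ℝ] X →ₗ[ℝ] X := LinearMap.mk₂ ℝ b
    (fun h h' c => huniq _ _ fun φ => by simp [hb, map_add])
    (fun t h c => huniq _ _ fun φ => by simp [hb])
    (fun h c c' => huniq _ _ fun φ => by
      simp only [hb, map_add]
      rw [(hdd φ (c + c')).unique (((hdd φ c).add (hdd φ c')).congr_of_eventuallyEq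
        (Eventually.of_forall fun u => by simp))]
      rfl)
    (fun t h c => huniq _ _ fun φ => by
      simp only [hb, map_smul, smul_eq_mul]
      rw [(hdd φ (t • c)).unique (((hdd φ c).const_mul t).congr_of_eventuallyEq
        (Eventually.of_forall fun u => by simp))]
      rfl)
  let B : X →L[ℝ] X →L[ℝ] X := B₀.mkContinuous₂ M fun h c => by
    show ‖b h c‖ ≤ _
    obtain ⟨φ, hφ1, hφ2⟩ := exists_dual_vector'' ℝ (A (b h c))
    have hφA : φ (A (b h c)) = ‖A (b h c)‖ := hφ2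
    have hAb : ‖A (b h c)‖ = ‖b h c‖ := by
      rw [← hy.norm_dG (hb0 h c), hAe]
      rfl
    rw [hb, hAb] at hφA
    rw [← hφA]
    refine (Real.le_norm_self _).trans (((d φ c).le_opNorm h).trans ?_)
    refine (mul_le_mul_of_nonneg_right (hdn φ c) (norm_nonneg h)).trans ?_
    have : ‖φ‖ * (M * ‖c‖) * ‖h‖ ≤ 1 * (M * ‖c‖) * ‖h‖ := by gcongr
    linarith
  refine ⟨B, fun h c => hb0 h c, fun φ c => (hdd φ c).congr_fderiv ?_⟩
  refine ContinuousLinearMap.ext fun h => ?_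
  rw [hAe]
  exact (hb h c φ).symm

end Centre

end SphIso

end Vale.Agent.P084
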